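import Vale.Agent.Lib.P089.D.DW

/-!
# P089 part D, module D2b: darts from `Vs` into the ball

For a dart `p = (q, s)` of `β` with `q ∈ Vs` and `q' = q.s ∉ Vs` (so `q' ∈ Bl`, by `Core.memVs` and `(q', s) ∈ β`): take a word of
length `≤ 3 L` from `a` to `q'`, reduce it (`dexists_red`): `w0`.  `u0 = w0 ++ [s]` is a reduced word from `a` to `q`: if `w0 = w1 ++ [s]`
then `w1` leads to `q`, so `q ∈ Bl`, contradiction.  Since `q ∉ Bl`, `3 L < |u0|`, so `|u0| = 3 L + 1`.
Induction on `i < 40 L`: there is `w` with `|w| = i`, `Red (u0 ++ w)`, `walk a (u0 ++ w) = some r`, `r ∈ Vs` (`Core.two` gives a colour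
different from the last one; the next vertex `r'` is an endpoint of `β`, and `r' ∉ Bl`: otherwise a reduced word of length `≤ 3 L`
leads from `a` to `r'`, by `red_uniq` it is equal to `u0 ++ w ++ [s']`, which is longer).
The map `(p, i) ↦ r` is injective (`red_uniq`: lengths give `i = i'`, then `u0 = u0'`, so `s = s'` and `q = q'`).
-/

namespace P089

open scoped Classical

/-- the starting word of a dart entering the ball -/
private theorem start_word {S : Type} (Pg : PG S) {a : Pg.P} {β : Finset (Pg.P × S)}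
    {Vs : Finset Pg.P} (h : Core Pg a β Vs) {q : Pg.P} {s : S} (hb : (q, s) ∈ β) (hq : q ∈ Vs)
    {q' : Pg.P} (hnb : Pg.nb q s = some q') (hq' : q' ∉ Vs) :
    ∃ w0 : List S, Red (w0 ++ [s]) ∧ (w0 ++ [s]).length = 3 * Pg.L a + 1 ∧
      walk Pg.nb a (w0 ++ [s]) = some q := by
  obtain ⟨q'', h1, h2, -⟩ := h.dfd q s hb
  have e : q'' = q' := by
    rw [h1] at hnb
    exact Option.some.inj hnb
  subst e
  have hqB : q ∉ Bl Pg a := ((h.memVs q).mp hq).1
  have hBl : q'' ∈ Bl Pg a := by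
    by_contra hcon
    exact hq' ((h.memVs q'').mpr ⟨hcon, s, h2⟩)
  obtain ⟨w, hwl, hw⟩ := hBl
  obtain ⟨w0, hred, hlen, hwalk⟩ := dexists_red Pg hw
  have hback : Pg.nb q'' s = some q := Pg.symm _ _ _ h1
  have hwalkq : walk Pg.nb a (w0 ++ [s]) = some q := walk_snoc hwalk hback
  refine ⟨w0, ?_, ?_, hwalkq⟩
  · refine red_snoc hred fun t ht hts => ?_
    subst hts
    obtain ⟨w1, rfl⟩ : ∃ w1, w0 = w1 ++ [t] := by
      have hne : w0 ≠ [] := by
        rintro rfl
        simp at ht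
      refine ⟨w0.dropLast, ?_⟩
      have h3 := List.dropLast_append_getLast hne
      rw [List.getLast?_eq_some_getLast hne] at ht
      rw [Option.some.inj ht] at h3
      exact h3.symm
    obtain ⟨r, hr1, hr2⟩ := walk_split hwalk
    have hr3 : Pg.nb r t = some q'' := by
      simpa [walk] using hr2
    have hr4 : Pg.nb q'' t = some r := Pg.symm _ _ _ hr3
    rw [hback] at hr4
    have hr5 : q = r := Option.some.inj hr4
    apply hqB
    refine ⟨w1, ?_, ?_⟩
    · rw [List.length_append] at hlen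
      omega
    · rw [hr5]
      exact hr1
  · have h4 : ¬ (w0 ++ [s]).length ≤ 3 * Pg.L a := fun hcon => hqB ⟨_, hcon, hwalkq⟩
    have h5 : (w0 ++ [s]).length = w0.length + 1 := by simp
    omega

/-- long reduced continuations in `Vs` -/
private theorem cont_word {S : Type} (Pg : PG S) {a : Pg.P} {β : Finset (Pg.P × S)}
    {Vs : Finset Pg.P} (h : Core Pg a β Vs) {q : Pg.P} (hq : q ∈ Vs) {u0 : List S}
    (hne : u0 ≠ []) (hred : Red u0) (hlen : u0.length = 3 * Pg.L a + 1)
    (hwalk : walk Pg.nb a u0 = some q) (i : ℕ) (hi : i < 40 * Pg.L a) :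
    ∃ (w : List S) (r : Pg.P), w.length = i ∧ Red (u0 ++ w) ∧
      walk Pg.nb a (u0 ++ w) = some r ∧ r ∈ Vs := by
  induction i with
  | zero => exact ⟨[], q, rfl, by simpa using hred, by simpa using hwalk, hq⟩
  | succ i ih =>
    obtain ⟨w, r, h1, h2, h3, h4⟩ := ih (by omega)
    have hne2 : u0 ++ w ≠ [] := by simp [hne]
    obtain ⟨s', hs', hb'⟩ := h.two r h4 ((u0 ++ w).getLast hne2)
    obtain ⟨r', hr1, hr2, -⟩ := h.dfd r s' hb'
    have hred' : Red (u0 ++ w ++ [s']) := by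
      refine red_snoc h2 fun t ht hts => ?_
      rw [List.getLast?_eq_some_getLast hne2] at ht
      exact hs' (by rw [Option.some.inj ht, hts])
    have hw' : walk Pg.nb a (u0 ++ w ++ [s']) = some r' := walk_snoc h3 hr1
    have hl' : (u0 ++ w ++ [s']).length = 3 * Pg.L a + 1 + i + 1 := by
      rw [List.length_append, List.length_append, hlen, h1]
      simp
    refine ⟨w ++ [s'], r', by simp [h1], by rwa [← List.append_assoc], by
      rwa [← List.append_assoc], ?_⟩
    refine (h.memVs r').mpr ⟨?_, s', hr2⟩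
    rintro ⟨w2, hw2l, hw2⟩
    obtain ⟨w3, h5, h6, h7⟩ := dexists_red Pg hw2
    have h8 := red_uniq Pg hred' h5 hw' h7 (by omega)
    rw [h8] at hl'
    omega

theorem D2b {S : Type} (Pg : PG S) {a : Pg.P} {β : Finset (Pg.P × S)} {Vs : Finset Pg.P}
    (h : Core Pg a β Vs) :
    (β.filter fun p => p.1 ∈ Vs ∧ ∃ q', Pg.nb p.1 p.2 = some q' ∧ q' ∉ Vs).card * (40 * Pg.L a) ≤
      Vs.card := by
  set D : Finset (Pg.P × S) :=
    β.filter fun p => p.1 ∈ Vs ∧ ∃ q', Pg.nb p.1 p.2 = some q' ∧ q' ∉ Vs with hD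
  have key : ∀ x : (Pg.P × S) × ℕ, x ∈ D ×ˢ Finset.range (40 * Pg.L a) →
      ∃ (w0 w : List S) (r : Pg.P), (w0 ++ [x.1.2]).length = 3 * Pg.L a + 1 ∧
        walk Pg.nb a (w0 ++ [x.1.2]) = some x.1.1 ∧ w.length = x.2 ∧
        Red ((w0 ++ [x.1.2]) ++ w) ∧ walk Pg.nb a ((w0 ++ [x.1.2]) ++ w) = some r ∧ r ∈ Vs := by
    intro x hx
    rw [Finset.mem_product, Finset.mem_range] at hx
    obtain ⟨hx1, hx2⟩ := hx
    rw [hD, Finset.mem_filter] at hx1
    obtain ⟨hb, hq, q', hnb, hq'⟩ := hx1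
    obtain ⟨w0, h1, h2, h3⟩ := start_word Pg h hb hq hnb hq'
    obtain ⟨w, r, h4, h5, h6, h7⟩ := cont_word Pg h hq (by simp) h1 h2 h3 x.2 hx2
    exact ⟨w0, w, r, h2, h3, h4, h5, h6, h7⟩
  have hne : Nonempty Pg.P := ⟨a⟩
  choose! w0 w r h1 h2 h3 h4 h5 h6 using key
  have hcard : (D ×ˢ Finset.range (40 * Pg.L a)).card = D.card * (40 * Pg.L a) := by
    rw [Finset.card_product, Finset.card_range]
  rw [← hcard]
  refine Finset.card_le_card_of_injOn r (fun x hx => h6 x hx) ?_
  intro x hx y hy hxy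
  have hx' : x ∈ D ×ˢ Finset.range (40 * Pg.L a) := hx
  have hy' : y ∈ D ×ˢ Finset.range (40 * Pg.L a) := hy
  have bx : x.2 < 40 * Pg.L a := Finset.mem_range.mp (Finset.mem_product.mp hx').2
  have by' : y.2 < 40 * Pg.L a := Finset.mem_range.mp (Finset.mem_product.mp hy').2
  have hxy' : r x = r y := hxy
  have hwy := h5 y hy'
  rw [← hxy'] at hwy
  have lx : ((w0 x ++ [x.1.2]) ++ w x).length = 3 * Pg.L a + 1 + x.2 := by
    rw [List.length_append, h1 x hx', h3 x hx']
  have ly : ((w0 y ++ [y.1.2]) ++ w y).length = 3 * Pg.L a + 1 + y.2 := by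
    rw [List.length_append, h1 y hy', h3 y hy']
  have hL := Pg.L_pos a
  have heq := red_uniq Pg (h4 x hx') (h4 y hy') (h5 x hx') hwy (by omega)
  have hi : x.2 = y.2 := by
    rw [heq] at lx
    omega
  have hsplit := List.append_inj heq (by rw [h1 x hx', h1 y hy'])
  have hs : x.1.2 = y.1.2 := by
    have h7 := (List.append_inj' hsplit.1 rfl).2
    simpa using h7
  have hq : x.1.1 = y.1.1 := by
    have h8 := h2 x hx'
    rw [hsplit.1, h2 y hy'] at h8
    exact (Option.some.inj h8).symm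
  exact Prod.ext (Prod.ext hq hs) hi

end P089
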