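import Vale.Agent.Lib.P089.D.DW

/-!
# P089 part D, module D2i: a cycle inside the ball is zero

If `y ∈ Ysub` vanishes on `bet` then `y q s ≠ 0` implies `(q, s) ∉ α` (otherwise `(q, s) ∈ bet`), so `q`, `q.s ∈ Bl`.  Suppose `y q0 s0 ≠ 0`.
Induction on `n`: there is a reduced word `w` of length `n + 1` readable at `q0` all whose darts are in the support of `y` (the sum of
`y r ·` is zero, so at the end `r` of the path there is a colour different from the last one in the support).  For `n + 1 = 7 L`: `q0` and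
the end `r` are in `Bl a`, so there is a word of length `≤ 6 L` from `q0` to `r`; reduce it (`dexists_red`), `red_uniq`: contradiction.
-/

namespace P089

open scoped Classical

theorem D2i {S : Type} [Fintype S] (Pg : PG S) {x a : Pg.P} {α : Finset (Pg.P × S)}
    (h : AlphaOK Pg x a α) :
    ∀ y ∈ Ysub Pg x a α, (∀ p ∈ bet Pg x a α, y p.1 p.2 = 0) → y = 0 := by
  intro y hy hb
  obtain ⟨hc, hs⟩ := hy
  -- darts in the support of `y` are inside the ball
  have hin : ∀ q s, y q s ≠ 0 → ∃ q', Pg.nb q s = some q' ∧ q ∈ Bl Pg a ∧ q' ∈ Bl Pg a ∧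
      y q' s ≠ 0 := by
    intro q s hne
    obtain ⟨q', hq'⟩ := Option.isSome_iff_exists.mp (hc.supp q s hne).1
    refine ⟨q', hq', ?_⟩
    have h1 : y q' s ≠ 0 := by
      rw [hc.symm q s q' hq']
      exact hne
    rcases hs q s q' hq' hne with h2 | h2
    · exfalso
      apply hne
      refine hb (q, s) ?_
      unfold bet
      rw [Finset.mem_filter]
      exact ⟨h2, y, ⟨hc, hs⟩, hne⟩
    · exact ⟨h2.1, h2.2, h1⟩
  by_contra hy0
  obtain ⟨q0, s0, h0⟩ : ∃ q0 s0, y q0 s0 ≠ 0 := by
    by_contra hcon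
    push Not at hcon
    exact hy0 (funext fun q => funext fun s => hcon q s)
  have step : ∀ n : ℕ, ∃ (w : List S) (r : Pg.P) (t : S), Red w ∧ w.length = n + 1 ∧
      walk Pg.nb q0 w = some r ∧ w.getLast? = some t ∧ y r t ≠ 0 ∧ r ∈ Bl Pg a := by
    intro n
    induction n with
    | zero =>
      obtain ⟨q', h1, -, h3, h4⟩ := hin q0 s0 h0
      refine ⟨[s0], q', s0, List.isChain_singleton s0, rfl, ?_, rfl, h4, h3⟩
      change (Pg.nb q0 s0).bind (fun v' => walk Pg.nb v' []) = some q'
      rw [h1]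
      rfl
    | succ n ih =>
      obtain ⟨w, r, t, h1, h2, h3, h4, h5, -⟩ := ih
      obtain ⟨s, hst, hsne⟩ : ∃ s, s ≠ t ∧ y r s ≠ 0 := by
        by_contra hcon
        push Not at hcon
        apply h5
        have h6 := hc.bd r
        rwa [Finset.sum_eq_single t (fun s _ hs => hcon s hs)
          (fun h => absurd (Finset.mem_univ t) h)] at h6
      obtain ⟨q', h7, -, h9, h10⟩ := hin r s hsne
      refine ⟨w ++ [s], q', s, ?_, ?_, walk_snoc h3 h7, ?_, h10, h9⟩
      · refine red_snoc h1 fun t' ht' => ?_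
        rw [h4] at ht'
        have : t = t' := Option.some.inj ht'
        rw [← this]
        exact hst.symm
      · rw [List.length_append, h2]
        rfl
      · rw [List.getLast?_append]
        rfl
  have hL := Pg.L_pos a
  obtain ⟨w, r, t, h1, h2, h3, -, -, h4⟩ := step (7 * Pg.L a - 1)
  obtain ⟨-, -, h5, -, -⟩ := hin q0 s0 h0
  obtain ⟨w1, hw1, hw1'⟩ := h5
  obtain ⟨w2, hw2, hw2'⟩ := h4
  have h6 : walk Pg.nb q0 (w1.reverse ++ w2) = some r := by
    rw [dwalk_append_some w2 (walk_rev Pg hw1')]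
    exact hw2'
  obtain ⟨w', h7, h8, h9⟩ := dexists_red Pg h6
  rw [List.length_append, List.length_reverse] at h8
  have h10 : Pg.L q0 = Pg.L a := walk_L Pg hw1'
  have h11 := red_uniq Pg h1 h7 h3 h9 (by rw [h10]; omega)
  rw [h11] at h2
  omega

end P089
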