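import Vale.Agent.Lib.P089.D.DW

/-!
# P089 part D, module D2k: the dependencies

For `t ∈ Vs` with `f0 t ≠ 0` for some `f0 ∈ Dep`: for every `i` there are `w`, `r` with `|w| = i`, `Red w`, `walk t w = some r` and
`f r = f t` for all `f ∈ Dep` (induction: `f0 r = f0 t ≠ 0`, so `r ∈ Vs`; take a colour `s'` different from the last one with
`(r, s') ∈ β` (`Core.two`); `f r' = f r` by the definition of `Dep`).  For `i < 40 L` these `r` are different (`red_uniq`, `L t = L a` by
`Core.conn`), and they are in `Vs`.  So every nonempty class of the relation `∀ f ∈ Dep, f q = f q'` on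
`{q ∈ Vs | ∃ f ∈ Dep, f q ≠ 0}` has at least `40 L` elements, and `Dep` is embedded in the functions on the set of classes.
-/

namespace P089

open scoped Classical
open Module

theorem D2k_walk {S : Type} (Pg : PG S) {a : Pg.P} {β : Finset (Pg.P × S)} {Vs : Finset Pg.P}
    (h : Core Pg a β Vs) {t : Pg.P} {f0 : Pg.P → ZMod 2} (hf0 : f0 ∈ Dep Pg β Vs)
    (ht0 : f0 t ≠ 0) (i : ℕ) :
    ∃ (w : List S) (r : Pg.P), w.length = i ∧ Red w ∧ walk Pg.nb t w = some r ∧
      ∀ f ∈ Dep Pg β Vs, f r = f t := by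
  induction i with
  | zero => exact ⟨[], t, rfl, List.isChain_nil, rfl, fun _ _ => rfl⟩
  | succ i ih =>
    obtain ⟨w, r, hl, hred, hw, hf⟩ := ih
    have hr : r ∈ Vs := by
      by_contra hr
      apply ht0
      rw [← hf f0 hf0]
      exact hf0.1 r hr
    obtain ⟨s', hs', hβ⟩ : ∃ s', (∀ s, w.getLast? = some s → s ≠ s') ∧ (r, s') ∈ β := by
      cases hlast : w.getLast? with
      | none =>
        obtain ⟨s', hs'⟩ := ((h.memVs r).1 hr).2
        refine ⟨s', fun s hs => ?_, hs'⟩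
        cases hs
      | some s =>
        obtain ⟨s', h1, h2⟩ := h.two r hr s
        refine ⟨s', fun s'' hs => ?_, h2⟩
        cases hs
        exact h1.symm
    obtain ⟨r', h1, -, -⟩ := h.dfd r s' hβ
    refine ⟨w ++ [s'], r', by simp [hl], red_snoc hred hs', walk_snoc hw h1, fun f hfD => ?_⟩
    rw [← hfD.2 r s' r' hβ h1, hf f hfD]

theorem D2k_class {S : Type} (Pg : PG S) {a : Pg.P} {β : Finset (Pg.P × S)} {Vs : Finset Pg.P}
    (h : Core Pg a β Vs) {t : Pg.P} (ht : t ∈ Vs) {f0 : Pg.P → ZMod 2} (hf0 : f0 ∈ Dep Pg β Vs)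
    (ht0 : f0 t ≠ 0) (Q : Finset Pg.P)
    (hQ : ∀ r, (∀ f ∈ Dep Pg β Vs, f r = f t) → r ∈ Q) :
    40 * Pg.L a ≤ Q.card := by
  choose w r hl hred hw hf using D2k_walk Pg h hf0 ht0
  have hLt : Pg.L t = Pg.L a := by
    obtain ⟨v, hv⟩ := h.conn t ht
    exact walk_L Pg hv
  have hLa := Pg.L_pos a
  have h1 : (Finset.range (40 * Pg.L a)).card ≤ Q.card := by
    refine Finset.card_le_card_of_injOn r (fun i _ => hQ _ (hf i)) ?_
    intro i hi j hj hij
    have hi' : i < 40 * Pg.L a := Finset.mem_range.1 (Finset.mem_coe.1 hi)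
    have hj' : j < 40 * Pg.L a := Finset.mem_range.1 (Finset.mem_coe.1 hj)
    have h2 := hw j
    rw [← hij] at h2
    have h3 := red_uniq Pg (hred i) (hred j) (hw i) h2 (by rw [hl, hl, hLt]; omega)
    rw [← hl i, ← hl j, h3]
  rwa [Finset.card_range] at h1

theorem D2k {S : Type} (Pg : PG S) {a : Pg.P} {β : Finset (Pg.P × S)} {Vs : Finset Pg.P}
    (h : Core Pg a β Vs) :
    finrank (ZMod 2) (Dep Pg β Vs) * (40 * Pg.L a) ≤ Vs.card := by
  let ev : Pg.P → (Dep Pg β Vs →ₗ[ZMod 2] ZMod 2) := fun q =>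
    (LinearMap.proj q).comp (Dep Pg β Vs).subtype
  have hev : ∀ q (f : Dep Pg β Vs), ev q f = (f : Pg.P → ZMod 2) q := fun _ _ => rfl
  let V' : Finset Pg.P := Vs.filter fun q => ∃ f ∈ Dep Pg β Vs, f q ≠ 0
  let I : Finset (Dep Pg β Vs →ₗ[ZMod 2] ZMod 2) := V'.image ev
  let Φ : Dep Pg β Vs →ₗ[ZMod 2] (I → ZMod 2) := LinearMap.pi fun φ => φ.1
  have hinj : Function.Injective Φ := by
    rw [injective_iff_map_eq_zero]
    intro f hf
    refine Subtype.ext (funext fun q => ?_)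
    by_cases hq : q ∈ V'
    · have h1 := congrFun hf ⟨ev q, Finset.mem_image_of_mem ev hq⟩
      exact h1
    · by_contra hne
      apply hq
      refine Finset.mem_filter.2 ⟨?_, f.1, f.2, hne⟩
      by_contra hq'
      exact hne (f.2.1 q hq')
  have h1 := LinearMap.finrank_le_finrank_of_injective hinj
  rw [Module.finrank_fintype_fun_eq_card, Fintype.card_coe] at h1
  have h2 : 40 * Pg.L a * I.card ≤ V'.card := by
    refine Finset.mul_card_image_le_card_of_maps_to
      (fun q hq => Finset.mem_image_of_mem ev hq) _ ?_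
    intro φ hφ
    obtain ⟨t, ht, rfl⟩ := Finset.mem_image.1 hφ
    obtain ⟨htV, f0, hf0, ht0⟩ := Finset.mem_filter.1 ht
    refine D2k_class Pg h htV hf0 ht0 _ fun r hr => ?_
    have hr0 : f0 r ≠ 0 := by
      rw [hr f0 hf0]
      exact ht0
    refine Finset.mem_filter.2 ⟨Finset.mem_filter.2 ⟨?_, f0, hf0, hr0⟩, ?_⟩
    · by_contra hrV
      exact hr0 (hf0.1 r hrV)
    · refine LinearMap.ext fun f => ?_
      rw [hev, hev]
      exact hr f.1 f.2
  calc finrank (ZMod 2) (Dep Pg β Vs) * (40 * Pg.L a)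
      ≤ I.card * (40 * Pg.L a) := Nat.mul_le_mul_right _ h1
    _ = 40 * Pg.L a * I.card := Nat.mul_comm _ _
    _ ≤ V'.card := h2
    _ ≤ Vs.card := Finset.card_filter_le _ _

end P089
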