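import Mathlib

/-!
# P089 part D, module D2o: orientation of a set with a fixed point free involution

Take a linear order on `X` (`linearOrderOfSTO WellOrderingRel` or similar) and `E = {p ∈ β | p < fl p}`.
-/

namespace P089

open scoped Classical

theorem D2o {X : Type} (β : Finset X) (fl : X → X)
    (hfl : ∀ p ∈ β, fl p ∈ β ∧ fl (fl p) = p ∧ fl p ≠ p) :
    ∃ E ⊆ β, (∀ p ∈ β, p ∈ E ↔ fl p ∉ E) ∧ β.card = 2 * E.card := by
  have hE : ∀ p ∈ β, p ∈ β.filter (fun p => WellOrderingRel p (fl p)) ↔
      fl p ∉ β.filter (fun p => WellOrderingRel p (fl p)) := by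
    intro p hp
    obtain ⟨h1, h2, h3⟩ := hfl p hp
    simp only [Finset.mem_filter, hp, h1, true_and, h2]
    constructor
    · intro h4 h5
      exact asymm h4 h5
    · intro h4
      rcases trichotomous_of (WellOrderingRel : X → X → Prop) p (fl p) with h5 | h5 | h5
      · exact h5
      · exact absurd h5.symm h3
      · exact absurd h5 h4
  refine ⟨β.filter (fun p => WellOrderingRel p (fl p)), Finset.filter_subset _ _, hE, ?_⟩
  have h1 := Finset.card_filter_add_card_filter_not (s := β) (fun p => WellOrderingRel p (fl p))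
  have h2 : (β.filter (fun p => ¬ WellOrderingRel p (fl p))).card =
      (β.filter (fun p => WellOrderingRel p (fl p))).card := by
    refine Finset.card_nbij' fl fl ?_ ?_ ?_ ?_
    · intro p hp
      rw [Finset.mem_coe, Finset.mem_filter] at hp
      rw [Finset.mem_coe]
      by_contra hcon
      have h3 := (hE p hp.1).2 hcon
      rw [Finset.mem_filter] at h3
      exact hp.2 h3.2
    · intro p hp
      have hp' : p ∈ β.filter (fun p => WellOrderingRel p (fl p)) := hp
      rw [Finset.mem_coe, Finset.mem_filter] at hp
      rw [Finset.mem_coe, Finset.mem_filter]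
      refine ⟨(hfl p hp.1).1, fun h3 => ?_⟩
      exact (hE p hp.1).1 hp' (Finset.mem_filter.2 ⟨(hfl p hp.1).1, h3⟩)
    · intro p hp
      rw [Finset.mem_coe, Finset.mem_filter] at hp
      exact (hfl p hp.1).2.1
    · intro p hp
      rw [Finset.mem_coe, Finset.mem_filter] at hp
      exact (hfl p hp.1).2.1
  omega

end P089
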