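import Vale.Agent.Lib.P089.D.DDefs
import Vale.Agent.Lib.P089.D.D2o

/-!
# P089 part D, module D2r: the rank argument

`E ⊆ β` one dart of every pair (`D2o` with `fl (q, s) = (q', s)`, `nb q s = some q'`, `q' ≠ q` by `Pg.irr`).
`N : Matrix Vs E (ZMod 2)`, `N v (q, s) = [q = v] + [q' = v]`.  For `y ∈ Y` the vector `(y q s)_{(q,s) ∈ E}` is in the kernel of `N.mulVecLin`
(`∑ s, y v s = 0`; the darts at `v` in the support of `y` are in `β`, one of `(v, s)`, `(v.s, s)` is in `E`), and `y` is determined by it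
(`hsym`, `hinj`).  The kernel of `Nᵀ` is isomorphic to `Dep` (extension by zero): `f q = f q'` for `(q, s) ∈ E`.
`Matrix.rank_transpose`, rank-nullity twice: `dim Y ≤ |E| - rank N = |E| - (|Vs| - dim Dep)`.
-/

namespace P089

open scoped Classical
open Module

/-- the other end of a dart -/
private noncomputable def D2r_fl {S : Type} (Pg : PG S) (p : Pg.P × S) : Pg.P × S :=
  match Pg.nb p.1 p.2 with
  | some q' => (q', p.2)
  | none => p

private theorem D2r_fl_some {S : Type} (Pg : PG S) {q q' : Pg.P} {s : S}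
    (h : Pg.nb q s = some q') : D2r_fl Pg (q, s) = (q', s) := by
  simp [D2r_fl, h]

private theorem D2r_fl_fl {S : Type} (Pg : PG S) {q q' : Pg.P} {s : S}
    (h : Pg.nb q s = some q') : D2r_fl Pg (q', s) = (q, s) :=
  D2r_fl_some Pg (Pg.symm _ _ _ h)

/-- extension by zero -/
private noncomputable def D2r_ext {P : Type} (Vs : Finset P) (g : Vs → ZMod 2) (q : P) : ZMod 2 :=
  if h : q ∈ Vs then g ⟨q, h⟩ else 0

private theorem D2r_sum_ext {P : Type} (Vs : Finset P) (g : Vs → ZMod 2) (a : P) :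
    ∑ v : Vs, (if a = v.1 then (1 : ZMod 2) else 0) * g v = D2r_ext Vs g a := by
  unfold D2r_ext
  by_cases h : a ∈ Vs
  · rw [dif_pos h, Finset.sum_eq_single (⟨a, h⟩ : Vs)]
    · rw [if_pos rfl, one_mul]
    · intro b _ hb
      rw [if_neg, zero_mul]
      intro hab
      exact hb (Subtype.ext hab.symm)
    · intro h1
      exact absurd (Finset.mem_univ _) h1
  · rw [dif_neg h]
    refine Finset.sum_eq_zero fun v _ => ?_
    rw [if_neg, zero_mul]
    intro hav
    exact h (hav ▸ v.2)

theorem D2r {S : Type} [Fintype S] (Pg : PG S) {a : Pg.P} {β : Finset (Pg.P × S)}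
    {Vs : Finset Pg.P} (h : Core Pg a β Vs) (Y : Submodule (ZMod 2) (Pg.P → S → ZMod 2))
    (hsym : ∀ y ∈ Y, ∀ q s q', Pg.nb q s = some q' → y q' s = y q s)
    (hbd : ∀ y ∈ Y, ∀ q ∈ Vs, ∑ s, y q s = 0)
    (hsupp : ∀ y ∈ Y, ∀ q ∈ Vs, ∀ s, y q s ≠ 0 → (q, s) ∈ β)
    (hinj : ∀ y ∈ Y, (∀ p ∈ β, y p.1 p.2 = 0) → y = 0) :
    FiniteDimensional (ZMod 2) Y ∧
      2 * finrank (ZMod 2) Y + 2 * Vs.card ≤ β.card + 2 * finrank (ZMod 2) (Dep Pg β Vs) := by
  have hfl : ∀ p ∈ β, D2r_fl Pg p ∈ β ∧ D2r_fl Pg (D2r_fl Pg p) = p ∧ D2r_fl Pg p ≠ p := by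
    rintro ⟨q, s⟩ hp
    obtain ⟨q', h1, h2, -⟩ := h.dfd q s hp
    rw [D2r_fl_some Pg h1]
    refine ⟨h2, D2r_fl_fl Pg h1, ?_⟩
    intro hcon
    have : q' = q := congrArg Prod.fst hcon
    rw [this] at h1
    exact Pg.irr q s h1
  obtain ⟨E, hEβ, hE, hcard⟩ := D2o β (D2r_fl Pg) hfl
  have hyfl : ∀ y ∈ Y, ∀ p ∈ β, y (D2r_fl Pg p).1 (D2r_fl Pg p).2 = y p.1 p.2 := by
    rintro y hy ⟨q, s⟩ hp
    obtain ⟨q', h1, h2, -⟩ := h.dfd q s hp
    rw [D2r_fl_some Pg h1]
    exact hsym y hy q s q' h1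
  -- restriction to `E`
  let r : Y →ₗ[ZMod 2] (E → ZMod 2) :=
    { toFun := fun y e => (y : Pg.P → S → ZMod 2) e.1.1 e.1.2
      map_add' := fun y z => by funext e; rfl
      map_smul' := fun c y => by funext e; rfl }
  have hr : Function.Injective r := by
    rw [injective_iff_map_eq_zero]
    intro y hy0
    apply Subtype.ext
    refine hinj y y.2 fun p hp => ?_
    by_cases hpE : p ∈ E
    · exact congrFun hy0 ⟨p, hpE⟩
    · have h1 : D2r_fl Pg p ∈ E := by
        by_contra hcon
        exact hpE ((hE p hp).2 hcon)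
      rw [← hyfl y y.2 p hp]
      exact congrFun hy0 ⟨D2r_fl Pg p, h1⟩
  have hfinY : FiniteDimensional (ZMod 2) Y := Module.Finite.of_injective r hr
  refine ⟨hfinY, ?_⟩
  let N : Matrix Vs E (ZMod 2) := Matrix.of fun v e =>
    (if e.1.1 = v.1 then (1 : ZMod 2) else 0) + (if (D2r_fl Pg e.1).1 = v.1 then (1 : ZMod 2) else 0)
  -- the kernel of `N`
  have hker : ∀ y : Y, N.mulVecLin (r y) = 0 := by
    intro y
    funext v
    rw [Matrix.mulVecLin_apply]
    change ∑ e : E, ((if e.1.1 = v.1 then (1 : ZMod 2) else 0) +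
      (if (D2r_fl Pg e.1).1 = v.1 then (1 : ZMod 2) else 0)) *
        (y : Pg.P → S → ZMod 2) e.1.1 e.1.2 = 0
    set Fn : Pg.P × S → ZMod 2 := fun p =>
      (if p.1 = v.1 then (1 : ZMod 2) else 0) * (y : Pg.P → S → ZMod 2) p.1 p.2 with hFn
    have e1 : ∑ e : E, ((if e.1.1 = v.1 then (1 : ZMod 2) else 0) +
        (if (D2r_fl Pg e.1).1 = v.1 then (1 : ZMod 2) else 0)) *
        (y : Pg.P → S → ZMod 2) e.1.1 e.1.2 = ∑ e ∈ E, (Fn e + Fn (D2r_fl Pg e)) := by
      rw [← Finset.sum_coe_sort E (fun e => Fn e + Fn (D2r_fl Pg e))]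
      refine Finset.sum_congr rfl fun e _ => ?_
      rw [hFn]
      simp only
      rw [hyfl y y.2 e.1 (hEβ e.2), add_mul]
    have e2 : ∑ p ∈ β, Fn p = ∑ e ∈ E, Fn e + ∑ e ∈ E, Fn (D2r_fl Pg e) := by
      rw [← Finset.sum_sdiff hEβ, add_comm]
      congr 1
      refine Finset.sum_bij' (fun p _ => D2r_fl Pg p) (fun e _ => D2r_fl Pg e) ?_ ?_ ?_ ?_ ?_
      · intro p hp
        rw [Finset.mem_sdiff] at hp
        by_contra hcon
        exact hp.2 ((hE p hp.1).2 hcon)
      · intro e he
        rw [Finset.mem_sdiff]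
        exact ⟨(hfl e (hEβ he)).1, (hE e (hEβ he)).1 he⟩
      · intro p hp
        exact (hfl p (Finset.mem_sdiff.1 hp).1).2.1
      · intro e he
        exact (hfl e (hEβ he)).2.1
      · intro p hp
        rw [(hfl p (Finset.mem_sdiff.1 hp).1).2.1]
    have e3 : ∑ p ∈ β, Fn p = ∑ s, (y : Pg.P → S → ZMod 2) v.1 s := by
      have h4 : ∑ p ∈ β, Fn p = ∑ p ∈ β.filter (fun p => p.1 = v.1),
          (y : Pg.P → S → ZMod 2) p.1 p.2 := by
        rw [Finset.sum_filter]
        refine Finset.sum_congr rfl fun p _ => ?_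
        rw [hFn]
        simp only
        split_ifs <;> simp
      rw [h4]
      have h5 : ∑ s, (y : Pg.P → S → ZMod 2) v.1 s =
          ∑ s ∈ Finset.univ.filter (fun s => (v.1, s) ∈ β), (y : Pg.P → S → ZMod 2) v.1 s := by
        rw [Finset.sum_filter]
        refine Finset.sum_congr rfl fun s _ => ?_
        split_ifs with h6
        · rfl
        · by_contra hcon
          exact h6 (hsupp y y.2 v.1 v.2 s hcon)
      rw [h5]
      refine Finset.sum_bij' (fun p _ => p.2) (fun s _ => (v.1, s)) ?_ ?_ ?_ ?_ ?_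
      · rintro ⟨q, s⟩ hp
        rw [Finset.mem_filter] at hp
        rw [Finset.mem_filter]
        refine ⟨Finset.mem_univ _, ?_⟩
        have : q = v.1 := hp.2
        rw [← this]
        exact hp.1
      · intro s hs
        rw [Finset.mem_filter] at hs
        rw [Finset.mem_filter]
        exact ⟨hs.2, rfl⟩
      · rintro ⟨q, s⟩ hp
        rw [Finset.mem_filter] at hp
        have : q = v.1 := hp.2
        rw [this]
      · intro s _
        rfl
      · rintro ⟨q, s⟩ hp
        rw [Finset.mem_filter] at hp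
        have : q = v.1 := hp.2
        simp only [this]
    rw [e1, Finset.sum_add_distrib, ← e2, e3]
    exact hbd y y.2 v.1 v.2
  have hrange : LinearMap.range r ≤ LinearMap.ker N.mulVecLin := by
    rintro _ ⟨y, rfl⟩
    exact hker y
  have hd1 : finrank (ZMod 2) Y ≤ finrank (ZMod 2) (LinearMap.ker N.mulVecLin) := by
    rw [← LinearMap.finrank_range_of_inj hr]
    exact Submodule.finrank_mono hrange
  have hd2 := LinearMap.finrank_range_add_finrank_ker N.mulVecLin
  have hd3 := LinearMap.finrank_range_add_finrank_ker N.transpose.mulVecLin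
  have hrk : finrank (ZMod 2) (LinearMap.range N.transpose.mulVecLin) =
      finrank (ZMod 2) (LinearMap.range N.mulVecLin) := Matrix.rank_transpose N
  rw [Module.finrank_fintype_fun_eq_card, Fintype.card_coe] at hd2 hd3
  -- the kernel of `Nᵀ`
  have hkerT : ∀ g : Vs → ZMod 2, N.transpose.mulVecLin g = 0 → ∀ e ∈ E,
      D2r_ext Vs g e.1 = D2r_ext Vs g (D2r_fl Pg e).1 := by
    intro g hg e he
    have h1 := congrFun hg ⟨e, he⟩
    rw [Matrix.mulVecLin_apply] at h1
    change ∑ v : Vs, ((if e.1 = v.1 then (1 : ZMod 2) else 0) +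
      (if (D2r_fl Pg e).1 = v.1 then (1 : ZMod 2) else 0)) * g v = 0 at h1
    simp_rw [add_mul] at h1
    rw [Finset.sum_add_distrib, D2r_sum_ext, D2r_sum_ext] at h1
    exact CharTwo.add_eq_zero.1 h1
  have hfinD : FiniteDimensional (ZMod 2) (Dep Pg β Vs) := by
    let m : Dep Pg β Vs →ₗ[ZMod 2] (Vs → ZMod 2) :=
      { toFun := fun f v => (f : Pg.P → ZMod 2) v.1
        map_add' := fun _ _ => by funext e; rfl
        map_smul' := fun _ _ => by funext e; rfl }
    refine Module.Finite.of_injective m ?_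
    rw [injective_iff_map_eq_zero]
    intro f hf
    apply Subtype.ext
    funext q
    by_cases hq : q ∈ Vs
    · exact congrFun hf ⟨q, hq⟩
    · exact f.2.1 q hq
  let j : LinearMap.ker N.transpose.mulVecLin →ₗ[ZMod 2] Dep Pg β Vs :=
    { toFun := fun g => ⟨D2r_ext Vs g.1, by
        refine ⟨fun q hq => ?_, fun q s q' hqs hnb => ?_⟩
        · unfold D2r_ext
          rw [dif_neg hq]
        · by_cases hqE : (q, s) ∈ E
          · have h1 := hkerT g.1 g.2 (q, s) hqE
            rw [D2r_fl_some Pg hnb] at h1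
            exact h1
          · have h1 : D2r_fl Pg (q, s) ∈ E := by
              by_contra hcon
              exact hqE ((hE _ hqs).2 hcon)
            rw [D2r_fl_some Pg hnb] at h1
            have h2 := hkerT g.1 g.2 (q', s) h1
            rw [D2r_fl_fl Pg hnb] at h2
            exact h2.symm⟩
      map_add' := fun g g' => by
        apply Subtype.ext
        funext q
        change D2r_ext Vs (g.1 + g'.1) q = D2r_ext Vs g.1 q + D2r_ext Vs g'.1 q
        unfold D2r_ext
        split_ifs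
        · rfl
        · rw [add_zero]
      map_smul' := fun c g => by
        apply Subtype.ext
        funext q
        change D2r_ext Vs (c • g.1) q = c • D2r_ext Vs g.1 q
        unfold D2r_ext
        split_ifs
        · rfl
        · rw [smul_zero] }
  have hj : Function.Injective j := by
    rw [injective_iff_map_eq_zero]
    intro g hg
    apply Subtype.ext
    funext v
    have h1 : D2r_ext Vs g.1 v.1 = 0 := congrFun (congrArg Subtype.val hg) v.1
    unfold D2r_ext at h1
    rw [dif_pos v.2] at h1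
    exact h1
  have hd4 : finrank (ZMod 2) (LinearMap.ker N.transpose.mulVecLin) ≤
      finrank (ZMod 2) (Dep Pg β Vs) := LinearMap.finrank_le_finrank_of_injective hj
  omega

end P089
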