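import Vale.Agent.Lib.P089.D.D2a
import Vale.Agent.Lib.P089.D.D2b
import Vale.Agent.Lib.P089.D.D2k
import Vale.Agent.Lib.P089.D.D2r
import Vale.Agent.Lib.P089.D.D2i

/-!
# P089 part D, module D2f: the local estimate

`β = bet`, `Vs = ves`, `L = L a`.  `b` = number of darts of `β` from `Vs` to the outside of `Vs`, `κ = dim Dep`.
`40 L b ≤ |Vs|` (`D2b`), `40 L κ ≤ |Vs|` (`D2k`), `2 |Vs| ≤ |β|` (`Core.two`: two darts at every vertex of `Vs`),
`2 dim Ysub + 2 |Vs| ≤ |β| + 2 κ` (`D2r`, `D2i`).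
`|β| = (sum over Vs of the degrees in β) + b` (the darts starting outside `Vs` are the flips of the `b` darts), and the darts of `β` with both
ends in `Vs` are `|β| - 2b` many, all counted in `darts Vs`.
With `c₁ = min h (1/20)`: `|β| ≤ (d - c₁)|Vs| + 2b`: if `|Vs| ≤ 19/20 |X|` by `B2`; otherwise `deg_β q ≤ deg_α q ≤ d`, and
`deg_β q ≤ d - 1` except for at most `9/10 |X|` vertices, so the sum of the degrees is at most
`d |Vs| - (|Vs| - 9/10 |X|) ≤ d |Vs| - |Vs| / 20`.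
So `2 dim Ysub ≤ |β| (1 - 2/(d - c₁) + (4/(d-c₁) + 2)/(80 L)) ≤ |β| (1 - 2/d - c)` for `c = c₁/d²`, `L ≥ L0 = ⌈d²/c₁⌉`, and
`|β| ≤ |α|`, `1 - 2/d - c ≥ 0`.
-/

namespace P089

open scoped Classical
open Module

private theorem D2f_num {D c1 ε y V B b κ : ℝ} (hD : 3 ≤ D) (hc : 0 < c1) (hc1 : c1 ≤ 1 / 20)
    (hε0 : 0 ≤ ε) (hε : ε * (40 * D ^ 2) ≤ c1) (hV : 0 ≤ V)
    (h1 : 2 * y + 2 * V ≤ B + 2 * κ) (h2 : B ≤ (D - c1) * V + 2 * b) (h3 : b ≤ ε * V)
    (h4 : κ ≤ ε * V) : 2 * y ≤ (1 - 2 / D - c1 / D ^ 2) * B := by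
  have hD0 : 0 < D := by linarith
  have hD2 : 0 < D ^ 2 := by positivity
  have e1 : ε * D ^ 2 ≤ c1 / 40 := by linarith
  have e2 : ε * D ≤ c1 / 40 := by
    have : ε * D ≤ ε * D ^ 2 := mul_le_mul_of_nonneg_left (by nlinarith) hε0
    linarith
  have e3 : ε * c1 ≤ c1 / 40 := by
    have : ε * c1 ≤ ε * D := mul_le_mul_of_nonneg_left (by linarith) hε0
    linarith
  have key : (2 * D + c1) * (D - c1 + 2 * ε) ≤ 2 * (1 - ε) * D ^ 2 := by
    have e4 : c1 * 3 ≤ c1 * D := mul_le_mul_of_nonneg_left hD hc.le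
    nlinarith [sq_nonneg c1]
  have h5 : B ≤ (D - c1 + 2 * ε) * V := by nlinarith
  have h6 : (2 * D + c1) * B ≤ 2 * (1 - ε) * D ^ 2 * V := by
    calc (2 * D + c1) * B ≤ (2 * D + c1) * ((D - c1 + 2 * ε) * V) :=
          mul_le_mul_of_nonneg_left h5 (by linarith)
      _ = ((2 * D + c1) * (D - c1 + 2 * ε)) * V := by ring
      _ ≤ (2 * (1 - ε) * D ^ 2) * V := mul_le_mul_of_nonneg_right key hV
  have h7 : (2 / D + c1 / D ^ 2) * B ≤ 2 * (1 - ε) * V := by
    have e5 : (2 / D + c1 / D ^ 2) * B = ((2 * D + c1) * B) / D ^ 2 := by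
      field_simp
    rw [e5, div_le_iff₀ hD2]
    linarith
  linarith

section

variable {S : Type} {Pg : PG S} {a : Pg.P} {β : Finset (Pg.P × S)} {Vs : Finset Pg.P}

private theorem D2f_out (core : Core Pg a β Vs) :
    (β.filter fun p => p.1 ∉ Vs).card ≤
      (β.filter fun p => p.1 ∈ Vs ∧ ∃ q', Pg.nb p.1 p.2 = some q' ∧ q' ∉ Vs).card := by
  have key : ∀ p ∈ β.filter (fun p => p.1 ∉ Vs), ∃ q', Pg.nb p.1 p.2 = some q' ∧
      (q', p.2) ∈ β ∧ q' ∈ Vs := by
    rintro ⟨q, s⟩ hp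
    obtain ⟨hp1, hp2⟩ := Finset.mem_filter.1 hp
    obtain ⟨q', h1, h2, h3⟩ := core.dfd q s hp1
    exact ⟨q', h1, h2, h3.resolve_left hp2⟩
  refine Finset.card_le_card_of_injOn (fun p => ((Pg.nb p.1 p.2).getD p.1, p.2)) ?_ ?_
  · intro p hp
    obtain ⟨q', h1, h2, h3⟩ := key p hp
    have hp2 := (Finset.mem_filter.1 hp).2
    simp only [h1, Option.getD_some]
    exact Finset.mem_coe.2 (Finset.mem_filter.2 ⟨h2, h3, p.1, Pg.symm _ _ _ h1, hp2⟩)
  · intro p hp r hr hpr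
    obtain ⟨q', h1, h2, h3⟩ := key p hp
    obtain ⟨r', h4, h5, h6⟩ := key r hr
    simp only [h1, h4, Option.getD_some, Prod.mk.injEq] at hpr
    obtain ⟨rfl, h7⟩ := hpr
    have h8 := Pg.symm _ _ _ h1
    have h9 := Pg.symm _ _ _ h4
    rw [h7, h9] at h8
    exact Prod.ext (Option.some.inj h8).symm h7

private theorem D2f_in [Fintype S] (core : Core Pg a β Vs) :
    (β.filter fun p => p.1 ∈ Vs).card ≤ Pg.darts Vs +
      (β.filter fun p => p.1 ∈ Vs ∧ ∃ q', Pg.nb p.1 p.2 = some q' ∧ q' ∉ Vs).card := by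
  unfold PG.darts
  refine (Finset.card_le_card ?_).trans (Finset.card_union_le _ _)
  rintro ⟨q, s⟩ hp
  obtain ⟨hp1, hp2⟩ := Finset.mem_filter.1 hp
  obtain ⟨q', h1, h2, h3⟩ := core.dfd q s hp1
  by_cases h4 : q' ∈ Vs
  · exact Finset.mem_union_left _ (Finset.mem_filter.2
      ⟨Finset.mem_product.2 ⟨hp2, Finset.mem_univ _⟩, q', h4, h1⟩)
  · exact Finset.mem_union_right _ (Finset.mem_filter.2 ⟨hp1, hp2, q', h1, h4⟩)

private theorem D2f_split :
    β.card = (β.filter fun p => p.1 ∈ Vs).card + (β.filter fun p => p.1 ∉ Vs).card :=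
  (Finset.card_filter_add_card_filter_not (s := β) (fun p => p.1 ∈ Vs)).symm

private theorem D2f_fiber : (β.filter fun p => p.1 ∈ Vs).card =
    ∑ q ∈ Vs, ((β.filter fun p => p.1 ∈ Vs).filter fun p => p.1 = q).card :=
  Finset.card_eq_sum_card_fiberwise (f := Prod.fst) fun _ hp => (Finset.mem_filter.1 hp).2

private theorem D2f_deg [Fintype S] {α : Finset (Pg.P × S)} (hβ : β ⊆ α) {d : ℕ} (hd : 1 ≤ d)
    (hdeg : ∀ q, (Finset.univ.filter fun s => (q, s) ∈ α).card ≤ d) :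
    (β.filter fun p => p.1 ∈ Vs).card ≤ (d - 1) * Vs.card +
      (Vs.filter fun q => d ≤ (Finset.univ.filter fun s => (q, s) ∈ α).card).card := by
  rw [D2f_fiber, Finset.card_filter (fun q => d ≤ (Finset.univ.filter fun s => (q, s) ∈ α).card),
    mul_comm, ← smul_eq_mul, ← Finset.sum_const, ← Finset.sum_add_distrib]
  refine Finset.sum_le_sum fun q _ => ?_
  have h1 : ((β.filter fun p => p.1 ∈ Vs).filter fun p => p.1 = q).card ≤
      (Finset.univ.filter fun s => (q, s) ∈ α).card := by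
    refine Finset.card_le_card_of_injOn Prod.snd ?_ ?_
    · rintro ⟨r, s⟩ hp
      obtain ⟨hp1, hp2⟩ := Finset.mem_filter.1 hp
      have hp3 := (Finset.mem_filter.1 hp1).1
      simp only at hp2
      subst hp2
      exact Finset.mem_coe.2 (Finset.mem_filter.2 ⟨Finset.mem_univ _, hβ hp3⟩)
    · intro p hp r hr hpr
      have hp2 := (Finset.mem_filter.1 hp).2
      have hr2 := (Finset.mem_filter.1 hr).2
      exact Prod.ext (hp2.trans hr2.symm) hpr
  have h2 := hdeg q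
  split_ifs with h3
  · omega
  · omega

end

theorem D2f : ∀ (d : ℕ) (h : ℝ), 3 ≤ d → 0 < h → ∃ (c : ℝ) (L0 : ℕ), 0 < c ∧
    ∀ (S : Type) [Fintype S] (Fm : Fam S d), Fm.B2 h → (∀ x, L0 ≤ Fm.L x) →
      ∀ (x a : Fm.P) (α : Finset (Fm.P × S)), AlphaOK Fm.toPG x a α →
        10 * ((Fm.X (Fm.idx x)).filter fun q =>
          d ≤ (Finset.univ.filter fun s => (q, s) ∈ α).card).card ≤ 9 * (Fm.X (Fm.idx x)).card →
        FiniteDimensional (ZMod 2) (Ysub Fm.toPG x a α) ∧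
          2 * (finrank (ZMod 2) (Ysub Fm.toPG x a α) : ℝ) ≤ (1 - 2 / d - c) * α.card := by
  intro d h hd hh
  have hD : (3 : ℝ) ≤ d := by exact_mod_cast hd
  have hD0 : (0 : ℝ) < d := by linarith
  obtain ⟨c1, hc1def⟩ : ∃ c1 : ℝ, c1 = min h (1 / 20) := ⟨_, rfl⟩
  have hc0 : 0 < c1 := by
    rw [hc1def]
    exact lt_min hh (by norm_num)
  have hch : c1 ≤ h := by
    rw [hc1def]
    exact min_le_left _ _
  have hc20 : c1 ≤ 1 / 20 := by
    rw [hc1def]
    exact min_le_right _ _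
  refine ⟨c1 / (d : ℝ) ^ 2, ⌈(d : ℝ) ^ 2 / c1⌉₊, by positivity, ?_⟩
  intro S _ Fm hB2 hL x a α hα hcode
  have core := D2a Fm.toPG hα
  have hβα : bet Fm.toPG x a α ⊆ α := Finset.filter_subset _ _
  -- the rank estimate
  obtain ⟨hfd, hrank⟩ := D2r Fm.toPG core (Ysub Fm.toPG x a α)
    (fun y hy q s q' hq => hy.1.symm q s q' hq)
    (fun y hy q _ => hy.1.bd q)
    (fun y hy q hq s hne => by
      obtain ⟨hs, -⟩ := hy.1.supp q s hne
      obtain ⟨q', hq'⟩ := Option.isSome_iff_exists.1 hs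
      have hqB := ((core.memVs q).1 hq).1
      rcases hy.2 q s q' hq' hne with h1 | h1
      · exact Finset.mem_filter.2 ⟨h1, y, hy, hne⟩
      · exact absurd h1.1 hqB)
    (D2i Fm.toPG hα)
  refine ⟨hfd, ?_⟩
  have hb := D2b Fm.toPG core
  have hk := D2k Fm.toPG core
  set β := bet Fm.toPG x a α with hβdef
  set Vs := ves Fm.toPG x a α with hVsdef
  set b := (β.filter fun p => p.1 ∈ Vs ∧ ∃ q', Fm.nb p.1 p.2 = some q' ∧ q' ∉ Vs).card with hbdef
  set κ := finrank (ZMod 2) (Dep Fm.toPG β Vs) with hκdef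
  have hout := D2f_out core
  have hin := D2f_in core
  have hsplit := D2f_split (β := β) (Vs := Vs)
  -- `Vs` is contained in `X`
  have hidx : ∀ q ∈ Vs, q ∈ Fm.X (Fm.idx x) := by
    intro q hq
    rw [Fm.memX]
    have h1 := (Fm.conn a q).2 (core.conn q hq)
    have h2 := (Fm.conn x a).2 hα.conn_a
    rw [← h1, ← h2]
  have hVX : Vs ⊆ Fm.X (Fm.idx x) := hidx
  have hdeg : ∀ q, (Finset.univ.filter fun s => (q, s) ∈ α).card ≤ d := by
    intro q
    refine le_trans (Finset.card_le_card ?_) (Fm.deg q)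
    intro s hs
    have h1 := (Finset.mem_filter.1 hs).2
    obtain ⟨q', h2, -⟩ := hα.dfd q s h1
    refine Finset.mem_filter.2 ⟨Finset.mem_univ _, ?_⟩
    rw [h2]
    rfl
  have hdegs := D2f_deg (Vs := Vs) hβα (by omega : 1 ≤ d) hdeg
  -- real versions
  have hV0 : (0 : ℝ) ≤ Vs.card := Nat.cast_nonneg _
  have hb0 : (0 : ℝ) ≤ b := Nat.cast_nonneg _
  have hsplitR : (β.card : ℝ) ≤ (β.filter fun p => p.1 ∈ Vs).card + b := by
    have : β.card ≤ (β.filter fun p => p.1 ∈ Vs).card + b := by omega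
    exact_mod_cast this
  have hmain : (β.card : ℝ) ≤ (d - c1) * Vs.card + 2 * b := by
    by_cases h19 : (Vs.card : ℝ) ≤ 19 / 20 * (Fm.X (Fm.idx x)).card
    · have h1 := hB2 (Fm.idx x) Vs hVX h19
      have h2 : ((β.filter fun p => p.1 ∈ Vs).card : ℝ) ≤ Fm.darts Vs + b := by
        exact_mod_cast hin
      have h3 : ((d : ℝ) - h) * Vs.card ≤ (d - c1) * Vs.card :=
        mul_le_mul_of_nonneg_right (by linarith) hV0
      linarith
    · have h1 : (Vs.filter fun q => d ≤ (Finset.univ.filter fun s => (q, s) ∈ α).card).card ≤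
          ((Fm.X (Fm.idx x)).filter fun q =>
            d ≤ (Finset.univ.filter fun s => (q, s) ∈ α).card).card :=
        Finset.card_le_card (Finset.filter_subset_filter _ hVX)
      have h2 : 10 * (Vs.filter fun q =>
          d ≤ (Finset.univ.filter fun s => (q, s) ∈ α).card).card ≤
          9 * (Fm.X (Fm.idx x)).card := by omega
      have h3 : (10 : ℝ) * (Vs.filter fun q =>
          d ≤ (Finset.univ.filter fun s => (q, s) ∈ α).card).card ≤
          9 * (Fm.X (Fm.idx x)).card := by exact_mod_cast h2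
      have h4 : ((β.filter fun p => p.1 ∈ Vs).card : ℝ) ≤ ((d : ℝ) - 1) * Vs.card +
          (Vs.filter fun q => d ≤ (Finset.univ.filter fun s => (q, s) ∈ α).card).card := by
        have h5 : (((d - 1 : ℕ) : ℝ)) = (d : ℝ) - 1 := by
          rw [Nat.cast_sub (by omega)]
          norm_num
        rw [← h5]
        exact_mod_cast hdegs
      have h6 : c1 * Vs.card ≤ 1 / 20 * Vs.card := mul_le_mul_of_nonneg_right hc20 hV0
      rw [not_le] at h19
      nlinarith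
  -- the error terms
  have hLa : (d : ℝ) ^ 2 / c1 ≤ Fm.L a := (Nat.le_ceil _).trans (by exact_mod_cast hL a)
  have hLpos : (0 : ℝ) < Fm.L a := lt_of_lt_of_le (by positivity) hLa
  have hbR : (b : ℝ) ≤ 1 / (40 * Fm.L a) * Vs.card := by
    have h1 : (b : ℝ) * (40 * Fm.L a) ≤ Vs.card := by exact_mod_cast hb
    rw [one_div, inv_mul_eq_div, le_div_iff₀ (by positivity)]
    exact h1
  have hkR : (κ : ℝ) ≤ 1 / (40 * Fm.L a) * Vs.card := by
    have h1 : (κ : ℝ) * (40 * Fm.L a) ≤ Vs.card := by exact_mod_cast hk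
    rw [one_div, inv_mul_eq_div, le_div_iff₀ (by positivity)]
    exact h1
  have hε : 1 / (40 * (Fm.L a : ℝ)) * (40 * (d : ℝ) ^ 2) ≤ c1 := by
    rw [div_le_iff₀ hc0] at hLa
    have e : 1 / (40 * (Fm.L a : ℝ)) * (40 * (d : ℝ) ^ 2) = (d : ℝ) ^ 2 / Fm.L a := by
      field_simp
    rw [e, div_le_iff₀ hLpos]
    linarith
  have hrankR : 2 * (finrank (ZMod 2) (Ysub Fm.toPG x a α) : ℝ) + 2 * Vs.card ≤
      β.card + 2 * κ := by exact_mod_cast hrank
  have hfin := D2f_num hD hc0 hc20 (by positivity) hε hV0 hrankR hmain hbR hkR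
  refine hfin.trans ?_
  have h1 : (β.card : ℝ) ≤ α.card := by exact_mod_cast Finset.card_le_card hβα
  apply mul_le_mul_of_nonneg_left h1
  have h2 : 2 / (d : ℝ) ≤ 2 / 3 := div_le_div_of_nonneg_left (by norm_num) (by norm_num) hD
  have h3 : c1 / (d : ℝ) ^ 2 ≤ 1 / 20 := by
    rw [div_le_iff₀ (by positivity)]
    nlinarith
  linarith

end P089
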