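import Vale.Agent.Lib.P089.D.DDefs
import Vale.Agent.Lib.P089.D.D2o

/-!
# P089 part D, module D3a: dimension of the space of cycles inside `F`

`β` = linked darts inside `F` (closed under the flip `(v, s) ↦ (act v s, s)`: `link` is symmetric by `inv`), `E` from `D2o`.  The boundary
`(E → ZMod 2) → (F → ZMod 2)`, `b ↦ ∑` over the darts at `v` (of the symmetric extension of `b`), has kernel of dimension at least
`|E| - |F|`, and the symmetric extension (by zero) embeds the kernel into `Wsub`.
`Wsub` is finite dimensional: its elements vanish outside the finite set `F × S`.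
-/

namespace P089

open scoped Classical
open Module

/-- symmetric extension of a function on oriented darts -/
noncomputable def D3a_ext {S V : Type} (act : V → S → V) (E : Finset (V × S)) :
    (E → ZMod 2) →ₗ[ZMod 2] (V → S → ZMod 2) where
  toFun b v s := if h : (v, s) ∈ E then b ⟨_, h⟩ else
    if h : (act v s, s) ∈ E then b ⟨_, h⟩ else 0
  map_add' := by
    intro b c
    funext v s
    simp only [Pi.add_apply]
    split_ifs <;> simp
  map_smul' := by
    intro a b
    funext v s
    simp only [Pi.smul_apply, RingHom.id_apply]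
    split_ifs <;> simp

theorem D3a_ext_apply {S V : Type} (act : V → S → V) (E : Finset (V × S)) (b : E → ZMod 2)
    (v : V) (s : S) : D3a_ext act E b v s = if h : (v, s) ∈ E then b ⟨_, h⟩ else
    if h : (act v s, s) ∈ E then b ⟨_, h⟩ else 0 := rfl

/-- the boundary at the vertices of `F` -/
noncomputable def D3a_bd {S V : Type} [Fintype S] (act : V → S → V) (E : Finset (V × S))
    (F : Finset V) : (E → ZMod 2) →ₗ[ZMod 2] (F → ZMod 2) where
  toFun b v := ∑ s, D3a_ext act E b v s
  map_add' := by
    intro b c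
    funext v
    simp only [map_add, Pi.add_apply]
    rw [Finset.sum_add_distrib]
  map_smul' := by
    intro a b
    funext v
    simp only [map_smul, Pi.smul_apply, RingHom.id_apply]
    rw [← Finset.smul_sum]

theorem D3a_fin {S V : Type} [Fintype S] (act : V → S → V) (ω : V → Option (Finset S))
    (F : Finset V) : FiniteDimensional (ZMod 2) (Wsub act ω F) := by
  let φ : Wsub act ω F →ₗ[ZMod 2] (F × S → ZMod 2) :=
    { toFun := fun z p => (z : V → S → ZMod 2) p.1 p.2
      map_add' := fun _ _ => rfl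
      map_smul' := fun _ _ => rfl }
  refine FiniteDimensional.of_injective φ ?_
  intro y z h
  apply Subtype.ext
  funext v s
  by_cases hv : v ∈ F
  · exact congrFun h (⟨v, hv⟩, s)
  · have h1 : ∀ z ∈ Wsub act ω F, z v s = 0 := by
      intro z hz
      by_contra h2
      exact hv (hz.2.2 v s h2).1
    rw [h1 _ y.2, h1 _ z.2]

theorem D3a {S V : Type} [Fintype S] (act : V → S → V) (inv : ∀ v s, act (act v s) s = v)
    (ne : ∀ v s, act v s ≠ v) (ω : V → Option (Finset S)) (F : Finset V) :
    FiniteDimensional (ZMod 2) (Wsub act ω F) ∧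
      ldarts act ω F ≤ 2 * finrank (ZMod 2) (Wsub act ω F) + 2 * F.card := by
  have hfin := D3a_fin act ω F
  refine ⟨hfin, ?_⟩
  unfold ldarts
  set β := (F ×ˢ (Finset.univ : Finset S)).filter
    fun p => link act ω p.1 p.2 ∧ act p.1 p.2 ∈ F with hβ
  have hmem : ∀ v s, (v, s) ∈ β ↔ v ∈ F ∧ link act ω v s ∧ act v s ∈ F := by
    intro v s
    rw [hβ, Finset.mem_filter, Finset.mem_product]
    simp
  obtain ⟨E, hEβ, hE, hcard⟩ := D2o β (fun p => (act p.1 p.2, p.2)) (by
    rintro ⟨v, s⟩ hp
    obtain ⟨h1, ⟨h2, h3⟩, h4⟩ := (hmem v s).1 hp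
    refine ⟨(hmem _ _).2 ⟨h4, ⟨h3, ?_⟩, ?_⟩, ?_, ?_⟩
    · simp only [inv]; exact h2
    · simp only [inv]; exact h1
    · simp only [inv]
    · intro h
      exact ne v s (congrArg Prod.fst h))
  have hE' : ∀ v s, (v, s) ∈ E → (act v s, s) ∉ E := fun v s h => (hE _ (hEβ h)).1 h
  have hin : ∀ v s, (act v s, s) ∈ E → (v, s) ∈ β := by
    intro v s h
    obtain ⟨h1, ⟨h2, h3⟩, h4⟩ := (hmem _ s).1 (hEβ h)
    rw [inv] at h3 h4
    exact (hmem v s).2 ⟨h4, ⟨h3, h2⟩, h1⟩
  have hsymm : ∀ b v s, D3a_ext act E b (act v s) s = D3a_ext act E b v s := by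
    intro b v s
    rw [D3a_ext_apply, D3a_ext_apply]
    simp only [inv]
    by_cases h1 : (v, s) ∈ E
    · rw [dif_neg (hE' v s h1), dif_pos h1, dif_pos h1]
    · by_cases h2 : (act v s, s) ∈ E
      · rw [dif_pos h2, dif_neg h1, dif_pos h2]
      · rw [dif_neg h2, dif_neg h1, dif_neg h1, dif_neg h2]
  have hsupp : ∀ b v s, D3a_ext act E b v s ≠ 0 → v ∈ F ∧ act v s ∈ F ∧ link act ω v s := by
    intro b v s h
    rw [D3a_ext_apply] at h
    have h3 : (v, s) ∈ β := by
      by_cases h1 : (v, s) ∈ E
      · exact hEβ h1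
      · by_cases h2 : (act v s, s) ∈ E
        · exact hin v s h2
        · rw [dif_neg h1, dif_neg h2] at h
          exact absurd rfl h
    obtain ⟨h4, h5, h6⟩ := (hmem v s).1 h3
    exact ⟨h4, h6, h5⟩
  have hW : ∀ b : LinearMap.ker (D3a_bd act E F), D3a_ext act E b ∈ Wsub act ω F := by
    rintro ⟨b, hb⟩
    refine ⟨hsymm b, fun v => ?_, hsupp b⟩
    by_cases hv : v ∈ F
    · exact congrFun (LinearMap.mem_ker.1 hb) ⟨v, hv⟩
    · refine Finset.sum_eq_zero fun s _ => ?_
      by_contra h2
      exact hv (hsupp b v s h2).1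
  let φ : LinearMap.ker (D3a_bd act E F) →ₗ[ZMod 2] Wsub act ω F :=
    LinearMap.codRestrict _ ((D3a_ext act E).comp (Submodule.subtype _)) hW
  have hinj : Function.Injective φ := by
    intro b c h
    apply Subtype.ext
    funext e
    have h1 : D3a_ext act E b = D3a_ext act E c := congrArg Subtype.val h
    have h2 := congrFun (congrFun h1 e.1.1) e.1.2
    rw [D3a_ext_apply, D3a_ext_apply, dif_pos e.2, dif_pos e.2] at h2
    exact h2
  have h1 := LinearMap.finrank_le_finrank_of_injective hinj
  have h2 := LinearMap.finrank_range_add_finrank_ker (D3a_bd act E F)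
  have h3 : finrank (ZMod 2) (LinearMap.range (D3a_bd act E F)) ≤ F.card := by
    refine (Submodule.finrank_le _).trans ?_
    rw [Module.finrank_fintype_fun_eq_card, Fintype.card_coe]
  rw [Module.finrank_fintype_fun_eq_card, Fintype.card_coe] at h2
  omega

end P089
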