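import Vale.Agent.Lib.P089.D.DM

/-!
# P089 part D, module D3b: finitely many copies

`Gen3` and `Model.isPush`: every `z ∈ W` is in `⨆ i, Asub i`; `Submodule.mem_iSup_iff_exists_finset` for a finite spanning set of `W`
gives a finite set `J0` of states.  Take `J ⊆ J0` of minimal cardinality with `W ≤ ⨆ i ∈ J, Asub i`: two different elements of `J` of
the same copy have the same `Asub` (`Model.asub_eq`), so one could be removed.
-/

namespace P089

open scoped Classical
open Module

theorem D3b {S V : Type} [Fintype S] {Pg : PG S} {act : V → S → V} (M : Model Pg V act)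
    (g : Gen3 Pg act) (W : Submodule (ZMod 2) (V → S → ZMod 2)) [FiniteDimensional (ZMod 2) W]
    (hW : ∀ z ∈ W, Cyc act z) :
    ∃ J : Finset (V × Pg.P), (∀ i ∈ J, ∀ j ∈ J, i ≠ j → ¬ Same Pg act i j) ∧
      W ≤ ⨆ i ∈ J, Asub Pg act i := by
  have h1 : ∀ z ∈ W, ∃ J : Finset (V × Pg.P), z ∈ ⨆ i ∈ J, Asub Pg act i := by
    intro z hz
    have h2 : z ∈ ⨆ i, Asub Pg act i := by
      refine (Submodule.span_le.2 ?_) (g z (hW z hz))
      rintro z' ⟨v, x, y, hy, hp⟩
      have h3 : z' ∈ Asub Pg act (v, x) := by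
        rw [M.isPush (v, x) y hp]
        exact Submodule.mem_map_of_mem hy
      exact le_iSup (fun i => Asub Pg act i) (v, x) h3
    exact Submodule.mem_iSup_iff_exists_finset.1 h2
  have h2 : ∃ J : Finset (V × Pg.P), W ≤ ⨆ i ∈ J, Asub Pg act i := by
    obtain ⟨T, hT⟩ : W.FG := (Submodule.fg_iff_finiteDimensional W).2 inferInstance
    have hTW : ∀ t ∈ T, t ∈ W := fun t ht => by
      rw [← hT]
      exact Submodule.subset_span ht
    choose! J hJ using fun z (hz : z ∈ W) => h1 z hz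
    refine ⟨T.biUnion J, ?_⟩
    rw [← hT, Submodule.span_le]
    intro t ht
    have h3 : (⨆ i ∈ J t, Asub Pg act i) ≤ ⨆ i ∈ T.biUnion J, Asub Pg act i := by
      refine biSup_mono fun i hi => ?_
      exact Finset.mem_biUnion.2 ⟨t, ht, hi⟩
    exact h3 (hJ t (hTW t ht))
  obtain ⟨J, hJ, hmin⟩ := WellFounded.has_min (measure (Finset.card (α := V × Pg.P))).wf
    {J : Finset (V × Pg.P) | W ≤ ⨆ i ∈ J, Asub Pg act i} h2
  refine ⟨J, fun i hi j hj hij hs => ?_, hJ⟩
  apply hmin (J.erase j)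
  · change W ≤ ⨆ i ∈ J.erase j, Asub Pg act i
    refine hJ.trans ?_
    refine iSup₂_le fun k hk => ?_
    by_cases hkj : k = j
    · rw [hkj, ← M.asub_eq hs]
      exact le_iSup₂ (f := fun i (_ : i ∈ J.erase j) => Asub Pg act i) i
        (Finset.mem_erase.2 ⟨hij, hi⟩)
    · exact le_iSup₂ (f := fun i (_ : i ∈ J.erase j) => Asub Pg act i) k
        (Finset.mem_erase.2 ⟨hkj, hk⟩)
  · exact Finset.card_erase_lt_of_mem hj

end P089
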