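import Vale.Agent.Lib.P089.D.DM

/-!
# P089 part D, module D3c: off the lower copies `y = z`

`y = pushL i y0` with `y0 ∈ PCsub`.  To show `y0 ∈ Ysub`: let `y0 q s ≠ 0`, `nb q s = some q'`, and `q`, `q'` not both in the ball
`Bl (ctr i)`.  `u0 = pt i q = go w` (`Model.pt_eq`).  Every element of `Asub j`, `j ∈ J'`, vanishes at the dart `(u0, s)`: otherwise
(`Model.pushL_ne`, `PCyc.supp`) the vertices `u0` and `act u0 s` are both in the copy of `j`, so `q`, `q'` are both in the ball by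
`Model.meet`.  So `u u0 s = 0` (`Submodule.iSup_induction` or the submodule of functions vanishing at `(u0, s)`), `z u0 s = y u0 s ≠ 0`, and
`z ∈ Wsub` gives `u0 ∈ F`, `act u0 s ∈ F`, `link`: `(q, s) ∈ alp` (`q ∈ X (idx x)` by `Fam.conn`, `Fam.memX`).
-/

namespace P089

open scoped Classical

private theorem D3c_walk {V S : Type} {nb : V → S → Option V} {v v' v'' : V} {w : List S} {s : S}
    (h : walk nb v w = some v') (h' : nb v' s = some v'') : walk nb v (w ++ [s]) = some v'' := by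
  induction w generalizing v with
  | nil =>
    simp only [walk, Option.some.injEq] at h
    subst h
    simp [walk, h']
  | cons a w ih =>
    simp only [walk, List.cons_append, Option.bind_eq_some_iff] at h ⊢
    obtain ⟨v1, h1, h2⟩ := h
    exact ⟨v1, h1, ih h2⟩

private theorem D3c_go {V S : Type} (act : V → S → V) (v : V) (w : List S) (s : S) :
    go act v (w ++ [s]) = act (go act v w) s := by
  simp [go]

theorem D3c {S V : Type} [Fintype S] {d : ℕ} {Fm : Fam S d} {act : V → S → V}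
    (M : Model Fm.toPG V act) (ω : V → Option (Finset S)) (F : Finset V) (i : V × Fm.P)
    (J' : Finset (V × Fm.P))
    (hJ' : ∀ j ∈ J', ¬ Same Fm.toPG act i j ∧ M.lev j.1 j.2 ≤ M.lev i.1 i.2)
    {z y u : V → S → ZMod 2} (hz : z ∈ Wsub act ω F) (hy : y ∈ Asub Fm.toPG act i)
    (hu : u ∈ ⨆ j ∈ J', Asub Fm.toPG act j) (h : z = y + u) :
    y ∈ (Ysub Fm.toPG i.2 (M.ctr i.1 i.2) (alp Fm act M ω F i)).map (pushL Fm.toPG act i) := by
  obtain ⟨y0, hy0, rfl⟩ := hy
  have hy1 : PCyc Fm.toPG i.2 y0 := hy0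
  refine ⟨y0, ⟨hy1, fun q s q' hq hne => ?_⟩, rfl⟩
  by_cases hB : q ∈ Bl Fm.toPG (M.ctr i.1 i.2) ∧ q' ∈ Bl Fm.toPG (M.ctr i.1 i.2)
  · exact Or.inr hB
  left
  obtain ⟨-, w, hw⟩ := hy1.supp q s hne
  have hpt : pt Fm.toPG act i q = go act i.1 w := M.pt_eq hw
  obtain ⟨u0, hu0⟩ : ∃ u0 : V, u0 = go act i.1 w := ⟨_, rfl⟩
  -- `u` vanishes at the dart
  have huz : u u0 s = 0 := by
    let N : Submodule (ZMod 2) (V → S → ZMod 2) :=
      { carrier := {f | f u0 s = 0}
        add_mem' := by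
          intro a b ha hb
          have ha' : a u0 s = 0 := ha
          have hb' : b u0 s = 0 := hb
          change a u0 s + b u0 s = 0
          rw [ha', hb', add_zero]
        zero_mem' := rfl
        smul_mem' := by
          intro c a ha
          have ha' : a u0 s = 0 := ha
          change c • a u0 s = 0
          rw [ha', smul_zero] }
    have hle : (⨆ j ∈ J', Asub Fm.toPG act j) ≤ N := by
      refine iSup₂_le fun j hj => ?_
      rintro _ ⟨y1, hy1', rfl⟩
      have hy2 : PCyc Fm.toPG j.2 y1 := hy1'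
      change pushL Fm.toPG act j y1 u0 s = 0
      by_contra hcon
      obtain ⟨q1, w1, hw1, he1, hne1⟩ := M.pushL_ne j y1 hcon
      obtain ⟨hsome, -⟩ := hy2.supp q1 s hne1
      obtain ⟨q1', hq1'⟩ := Option.isSome_iff_exists.1 hsome
      have hgo : go act i.1 w = go act j.1 w1 := by rw [← hu0, he1]
      refine hB ⟨M.meet (hJ' j hj).1 (hJ' j hj).2 hw hw1 hgo,
        M.meet (hJ' j hj).1 (hJ' j hj).2 (D3c_walk hw hq) (D3c_walk hw1 hq1') ?_⟩
      rw [D3c_go, D3c_go, hgo]
    exact hle hu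
  have hzne : z u0 s ≠ 0 := by
    rw [h, Pi.add_apply, Pi.add_apply, huz, add_zero, hu0, M.pushL_apply i y0 hw]
    exact hne
  have hz3 := hz.2.2 u0 s hzne
  unfold alp
  rw [Finset.mem_filter, Finset.mem_product]
  refine ⟨⟨?_, Finset.mem_univ _⟩, ⟨q', hq, hB⟩, ?_, ?_, ?_⟩
  · rw [Fm.memX]
    exact ((Fm.conn i.2 q).2 ⟨w, hw⟩).symm
  · rw [hpt, ← hu0]
    exact hz3.1
  · rw [hpt, ← hu0]
    exact hz3.2.1
  · rw [hpt, ← hu0]
    exact hz3.2.2

end P089
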