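import Vale.Agent.Lib.P089.D.DM

/-!
# P089 part D, module D3d: the sets `alp` are disjoint in the graph

The map `(i, (q, s)) ↦ (pt i q, s)` from the disjoint union of the `alp i` (`Finset.sigma`) to the linked darts inside `F` is injective:
for `i = i'` by `Model.go_inj` (all `q ∈ X (idx x)` are in the component of `x`, `Fam.conn`); for `i ≠ i'` (different copies), say
`lev i' ≤ lev i` (the other case is symmetric), the vertices `pt i q = pt i' q'` and `act (pt i q) s` are in both copies, so both ends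
of the dart `(q, s)` are in the ball by `Model.meet`, contradiction to the definition of `alp`.
-/

namespace P089

open scoped Classical

private theorem D3d_walk {S : Type} {P : Type} (nb : P → S → Option P) :
    ∀ (w : List S) (x q : P) (s : S) (q' : P), walk nb x w = some q → nb q s = some q' →
      walk nb x (w ++ [s]) = some q'
  | [], x, q, s, q', h, h' => by
    have hx : x = q := Option.some.inj h
    rw [← hx] at h'
    change (nb x s).bind (fun v' => walk nb v' []) = some q'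
    rw [h']
    rfl
  | t :: w, x, q, s, q', h, h' => by
    change (nb x t).bind (fun v' => walk nb v' w) = some q at h
    change (nb x t).bind (fun v' => walk nb v' (w ++ [s])) = some q'
    cases hx : nb x t with
    | none =>
      rw [hx] at h
      cases h
    | some y =>
      rw [hx] at h
      exact D3d_walk nb w y q s q' h h'

private theorem D3d_go {S V : Type} (act : V → S → V) (v : V) (w : List S) (s : S) :
    go act v (w ++ [s]) = act (go act v w) s := by
  unfold go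
  rw [List.foldl_append]
  rfl

private theorem D3d_mem {S V : Type} [Fintype S] {d : ℕ} {Fm : Fam S d} {act : V → S → V}
    (M : Model Fm.toPG V act) {ω : V → Option (Finset S)} {F : Finset V} {i : V × Fm.P}
    {q : Fm.P} {s : S} (h : (q, s) ∈ alp Fm act M ω F i) :
    ∃ (w : List S) (q₁ : Fm.P), walk Fm.nb i.2 w = some q ∧ Fm.nb q s = some q₁ ∧
      ¬ (q ∈ Bl Fm.toPG (M.ctr i.1 i.2) ∧ q₁ ∈ Bl Fm.toPG (M.ctr i.1 i.2)) ∧
      pt Fm.toPG act i q = go act i.1 w ∧ pt Fm.toPG act i q ∈ F ∧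
      act (pt Fm.toPG act i q) s ∈ F ∧ link act ω (pt Fm.toPG act i q) s := by
  unfold alp at h
  rw [Finset.mem_filter, Finset.mem_product] at h
  obtain ⟨⟨hX, -⟩, ⟨q₁, h1, h2⟩, h3, h4, h5⟩ := h
  have hidx : Fm.idx i.2 = Fm.idx q := ((Fm.memX _ _).1 hX).symm
  obtain ⟨w, hw⟩ := (Fm.conn i.2 q).1 hidx
  exact ⟨w, q₁, hw, h1, h2, M.pt_eq hw, h3, h4, h5⟩

private theorem D3d_aux {S V : Type} [Fintype S] {d : ℕ} {Fm : Fam S d} {act : V → S → V}
    (M : Model Fm.toPG V act) {ω : V → Option (Finset S)} {F : Finset V} {i j : V × Fm.P}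
    (hij : ¬ Same Fm.toPG act i j) (hl : M.lev j.1 j.2 ≤ M.lev i.1 i.2) {q q' : Fm.P} {s : S}
    (h : (q, s) ∈ alp Fm act M ω F i) (h' : (q', s) ∈ alp Fm act M ω F j)
    (e : pt Fm.toPG act i q = pt Fm.toPG act j q') : False := by
  obtain ⟨w, q₁, hw, hn, hball, hpt, -⟩ := D3d_mem M h
  obtain ⟨w', q₁', hw', hn', -, hpt', -⟩ := D3d_mem M h'
  have e1 : go act i.1 w = go act j.1 w' := by rw [← hpt, ← hpt', e]
  refine hball ⟨M.meet hij hl hw hw' e1, ?_⟩
  refine M.meet hij hl (D3d_walk Fm.nb w i.2 q s q₁ hw hn) (D3d_walk Fm.nb w' j.2 q' s q₁' hw' hn')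
    ?_
  rw [D3d_go, D3d_go, e1]

theorem D3d {S V : Type} [Fintype S] {d : ℕ} {Fm : Fam S d} {act : V → S → V}
    (M : Model Fm.toPG V act) (ω : V → Option (Finset S)) (F : Finset V) (J : Finset (V × Fm.P))
    (hJ : ∀ i ∈ J, ∀ j ∈ J, i ≠ j → ¬ Same Fm.toPG act i j) :
    ∑ i ∈ J, (alp Fm act M ω F i).card ≤ ldarts act ω F := by
  rw [← Finset.card_sigma]
  unfold ldarts
  refine Finset.card_le_card_of_injOn
    (fun p : (_ : V × Fm.P) × (Fm.P × S) => (pt Fm.toPG act p.1 p.2.1, p.2.2)) ?_ ?_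
  · rintro ⟨i, q, s⟩ hp
    have hp' : i ∈ J ∧ (q, s) ∈ alp Fm act M ω F i := Finset.mem_sigma.1 hp
    obtain ⟨w, q₁, hw, hn, hball, hpt, hF, hF', hl⟩ := D3d_mem M hp'.2
    have h1 : (pt Fm.toPG act i q, s) ∈ (F ×ˢ (Finset.univ : Finset S)).filter
        fun p => link act ω p.1 p.2 ∧ act p.1 p.2 ∈ F := by
      rw [Finset.mem_filter, Finset.mem_product]
      exact ⟨⟨hF, Finset.mem_univ _⟩, hl, hF'⟩
    exact h1
  · rintro ⟨i, q, s⟩ hp ⟨j, q', s'⟩ hp' e
    have hi : i ∈ J ∧ (q, s) ∈ alp Fm act M ω F i := Finset.mem_sigma.1 hp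
    have hj : j ∈ J ∧ (q', s') ∈ alp Fm act M ω F j := Finset.mem_sigma.1 hp'
    have e1 : pt Fm.toPG act i q = pt Fm.toPG act j q' := congrArg Prod.fst e
    have e2 : s = s' := congrArg Prod.snd e
    subst e2
    by_cases hij : i = j
    · subst hij
      obtain ⟨w, q₁, hw, -, -, hpt, -⟩ := D3d_mem M hi.2
      obtain ⟨w', q₁', hw', -, -, hpt', -⟩ := D3d_mem M hj.2
      have e3 : q = q' := M.go_inj hw hw' (by rw [← hpt, ← hpt', e1])
      subst e3
      rfl
    · exfalso
      rcases le_total (M.lev j.1 j.2) (M.lev i.1 i.2) with hl | hl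
      · exact D3d_aux M (hJ i hi.1 j hj.1 hij) hl hi.2 hj.2 e1
      · exact D3d_aux M (hJ j hj.1 i hi.1 (Ne.symm hij)) hl hj.2 hi.2 e1.symm

end P089
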