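import Vale.Agent.Lib.P089.D.DM

/-!
# P089 part D, module D3e: `alp` satisfies the hypotheses of the local estimate

`AlphaOK`: `(q, s) ∈ alp`, `nb q s = some q'` gives `(q', s) ∈ alp` (`pt i q' = act (pt i q) s`, `M.inv`, symmetry of `link`).
Count: if `alp = ∅` the left side is zero (`1 ≤ d`).  Otherwise `pt i q0 ∈ F` for some `q0`, which is in no active copy, so the copy of
`i` is not active (`Model.active_go`), and `Legal.code` bounds the `matchSet`.  A position `q` with at least `d` colours `s`,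
`(q, s) ∈ alp`, is in `matchSet`: these colours are in `ty q`, `|ty q| ≤ d`, and in `t`, `ω (pt i q) = some t`, `|t| ≤ d`, so
`t = ty q`.  (`matchSet` is finite: contained in `X (idx x)`.)
-/

namespace P089

open scoped Classical

private theorem D3e_memalp {S V : Type} [Fintype S] {d : ℕ} {Fm : Fam S d} {act : V → S → V}
    (M : Model Fm.toPG V act) (ω : V → Option (Finset S)) (F : Finset V) (i : V × Fm.P)
    (q : Fm.P) (s : S) :
    (q, s) ∈ alp Fm act M ω F i ↔
      q ∈ Fm.X (Fm.idx i.2) ∧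
      (∃ q', Fm.nb q s = some q' ∧
        ¬ (q ∈ Bl Fm.toPG (M.ctr i.1 i.2) ∧ q' ∈ Bl Fm.toPG (M.ctr i.1 i.2))) ∧
      pt Fm.toPG act i q ∈ F ∧ act (pt Fm.toPG act i q) s ∈ F ∧
      link act ω (pt Fm.toPG act i q) s := by
  unfold alp
  rw [Finset.mem_filter, Finset.mem_product]
  constructor
  · rintro ⟨⟨h1, -⟩, h2⟩
    exact ⟨h1, h2⟩
  · rintro ⟨h1, h2⟩
    exact ⟨⟨h1, Finset.mem_univ s⟩, h2⟩

private theorem D3e_conn {S : Type} [Fintype S] {d : ℕ} (Fm : Fam S d) {x q : Fm.P}
    (h : q ∈ Fm.X (Fm.idx x)) : ∃ w, walk Fm.nb x w = some q := by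
  have h1 : Fm.idx q = Fm.idx x := (Fm.memX _ _).1 h
  exact (Fm.conn x q).1 h1.symm

private theorem D3e_mem {S : Type} [Fintype S] {d : ℕ} (Fm : Fam S d) {x q : Fm.P} {w : List S}
    (h : walk Fm.nb x w = some q) : q ∈ Fm.X (Fm.idx x) :=
  (Fm.memX _ _).2 ((Fm.conn x q).2 ⟨w, h⟩).symm

theorem D3e {S V : Type} [Fintype S] {d : ℕ} (hd : 1 ≤ d) {Fm : Fam S d} {act : V → S → V}
    (M : Model Fm.toPG V act) {ω : V → Option (Finset S)} (hω : Legal Fm act ω) {F : Finset V}
    (hF : ∀ v ∈ F, v ∈ Rest Fm.toPG act ω) (i : V × Fm.P) :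
    AlphaOK Fm.toPG i.2 (M.ctr i.1 i.2) (alp Fm act M ω F i) ∧
      10 * ((Fm.X (Fm.idx i.2)).filter fun q =>
        d ≤ (Finset.univ.filter fun s => (q, s) ∈ alp Fm act M ω F i).card).card ≤
        9 * (Fm.X (Fm.idx i.2)).card := by
  refine ⟨⟨?_, ?_, ?_⟩, ?_⟩
  · obtain ⟨w, hw⟩ := M.ctr_conn i.1 i.2
    exact ⟨w.reverse, walk_rev Fm.toPG hw⟩
  · rintro ⟨q, s⟩ hp
    rw [D3e_memalp] at hp
    exact D3e_conn Fm hp.1
  · intro q s hp
    rw [D3e_memalp] at hp
    obtain ⟨hX, ⟨q', hq', hB⟩, h1, h2, h3⟩ := hp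
    obtain ⟨w, hw⟩ := D3e_conn Fm hX
    have hw' : walk Fm.nb i.2 (w ++ [s]) = some q' := walk_snoc hw hq'
    have e1 : pt Fm.toPG act i q = go act i.1 w := M.pt_eq hw
    have e2 : pt Fm.toPG act i q' = act (pt Fm.toPG act i q) s := by
      rw [e1, M.pt_eq hw', dgo_append]
      rfl
    have e3 : act (pt Fm.toPG act i q') s = pt Fm.toPG act i q := by
      rw [e2, M.inv]
    refine ⟨q', hq', ?_, hB⟩
    rw [D3e_memalp]
    refine ⟨D3e_mem Fm hw', ⟨q, Fm.symm q s q' hq', fun h => hB ⟨h.2, h.1⟩⟩, ?_, ?_, ?_⟩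
    · rw [e2]; exact h2
    · rw [e3]; exact h1
    · refine ⟨?_, ?_⟩
      · rw [e2]; exact h3.2
      · rw [e3]; exact h3.1
  · by_cases hne : ∃ p, p ∈ alp Fm act M ω F i
    · obtain ⟨⟨q0, s0⟩, h0⟩ := hne
      rw [D3e_memalp] at h0
      obtain ⟨hX, -, h1, -, -⟩ := h0
      obtain ⟨w, hw⟩ := D3e_conn Fm hX
      have e1 : pt Fm.toPG act i q0 = go act i.1 w := M.pt_eq hw
      have hact : ¬ Active Fm.toPG act ω i.1 i.2 := by
        intro hA
        have := (M.active_go (ω := ω) hw).1 hA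
        rw [← e1] at this
        exact (hF _ h1).2 q0 this
      have hcode := hω.code i.1 i.2 hact
      refine le_trans (Nat.mul_le_mul_left 10 ?_) hcode
      rw [← Set.ncard_coe_finset]
      refine Set.ncard_le_ncard ?_ ?_
      · intro q hq
        rw [Finset.mem_coe, Finset.mem_filter] at hq
        obtain ⟨hqX, hqd⟩ := hq
        obtain ⟨w', hw'⟩ := D3e_conn Fm hqX
        have e2 : pt Fm.toPG act i q = go act i.1 w' := M.pt_eq hw'
        have hpos : 0 < (Finset.univ.filter fun s => (q, s) ∈ alp Fm act M ω F i).card :=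
          lt_of_lt_of_le hd hqd
        obtain ⟨s1, hs1⟩ := Finset.card_pos.1 hpos
        rw [Finset.mem_filter, D3e_memalp] at hs1
        obtain ⟨t, ht, -⟩ := hs1.2.2.2.2.2.1
        have hsub1 : (Finset.univ.filter fun s => (q, s) ∈ alp Fm act M ω F i) ⊆ t := by
          intro s hs
          rw [Finset.mem_filter, D3e_memalp] at hs
          obtain ⟨t', ht', hst'⟩ := hs.2.2.2.2.2.1
          rw [ht] at ht'
          rw [Option.some.inj ht']
          exact hst'
        have hsub2 : (Finset.univ.filter fun s => (q, s) ∈ alp Fm act M ω F i) ⊆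
            Fm.toPG.ty q := by
          intro s hs
          rw [Finset.mem_filter, D3e_memalp] at hs
          obtain ⟨q', hq', -⟩ := hs.2.2.1
          unfold PG.ty
          rw [Finset.mem_filter]
          refine ⟨Finset.mem_univ s, ?_⟩
          rw [hq']
          rfl
        have e3 := Finset.eq_of_subset_of_card_le hsub1 ((hω.card_le _ _ ht).trans hqd)
        have e4 := Finset.eq_of_subset_of_card_le hsub2 ((Fm.deg q).trans hqd)
        refine ⟨w', hw', ?_⟩
        rw [← e2, ht, ← e4, e3]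
      · refine Set.Finite.subset (Fm.X (Fm.idx i.2)).finite_toSet ?_
        rintro y ⟨w', hw', -⟩
        exact D3e_mem Fm hw'
    · have h0 : ((Fm.X (Fm.idx i.2)).filter fun q =>
          d ≤ (Finset.univ.filter fun s => (q, s) ∈ alp Fm act M ω F i).card) = ∅ := by
        rw [Finset.filter_eq_empty_iff]
        intro q _ hq
        have hpos : 0 < (Finset.univ.filter fun s => (q, s) ∈ alp Fm act M ω F i).card :=
          lt_of_lt_of_le hd hq
        obtain ⟨s1, hs1⟩ := Finset.card_pos.1 hpos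
        rw [Finset.mem_filter] at hs1
        exact hne ⟨(q, s1), hs1.2⟩
      rw [h0, Finset.card_empty, Nat.mul_zero]
      exact Nat.zero_le _

end P089
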