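import Vale.Agent.Lib.P089.D.D1
import Vale.Agent.Lib.P089.D.D2f
import Vale.Agent.Lib.P089.D.D3a
import Vale.Agent.Lib.P089.D.D3b
import Vale.Agent.Lib.P089.D.D3c
import Vale.Agent.Lib.P089.D.D3d
import Vale.Agent.Lib.P089.D.D3e

/-!
# P089 part D, module D4: assembly

`ldarts ≤ 2 dim W + 2 |F|` (`D3a`), `dim W ≤ ∑ dim ((Ysub i).map pushL) ≤ ∑ dim (Ysub i)` (`D3b`, `D1_sum`, `D3c`),
`2 dim Ysub i ≤ (1 - 2/d - c) |alp i|` (`D2f`, `D3e`), `∑ |alp i| ≤ ldarts` (`D3d`).  So `(2/d + c) ldarts ≤ 2 |F|`.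
-/

namespace P089

open scoped Classical
open Module

theorem partD : PartD := by
  intro d h hd hh
  obtain ⟨c1, L0, hc1, H⟩ := D2f d h hd hh
  have hd3 : (3 : ℝ) ≤ d := by exact_mod_cast hd
  have hd0 : (0 : ℝ) < d := by linarith
  obtain ⟨c, hcdef⟩ : ∃ c : ℝ, c = min c1 (1 / 3) := ⟨_, rfl⟩
  have hc : 0 < c := by
    rw [hcdef]
    exact lt_min hc1 (by norm_num)
  have hcc1 : c ≤ c1 := by
    rw [hcdef]
    exact min_le_left _ _
  have hc3 : c ≤ 1 / 3 := by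
    rw [hcdef]
    exact min_le_right _ _
  have h7 : 0 ≤ 1 - 2 / (d : ℝ) - c := by
    have h8 : 2 / (d : ℝ) ≤ 2 / 3 := by
      rw [div_le_div_iff₀ hd0 (by norm_num)]
      linarith
    linarith
  have hpos : (0 : ℝ) < 2 / d + c := by positivity
  refine ⟨d - 2 / (2 / d + c), L0, ?_, ?_⟩
  · rw [sub_pos, div_lt_iff₀ hpos, mul_add]
    have h1 : (d : ℝ) * (2 / d) = 2 := by field_simp
    rw [h1]
    have h2 : 0 < (d : ℝ) * c := by positivity
    linarith
  intro S _ Fm hB2 hL0 V act M hG ω hω F hF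
  have hW := D3a act M.inv M.act_ne ω F
  have hWf := hW.1
  obtain ⟨J, hJ1, hJ2⟩ := D3b M hG (Wsub act ω F) (by
    intro z hz
    refine ⟨hz.1, ?_, hz.2.1⟩
    refine Set.Finite.subset (F.finite_toSet.prod (Set.finite_univ (α := S))) ?_
    rintro ⟨v, s⟩ hvs
    exact ⟨(hz.2.2 v s hvs).1, Set.mem_univ _⟩)
  have hok := fun i => D3e (by omega) M hω hF i
  have hY := fun i : V × Fm.P => H S Fm hB2 hL0 i.2 (M.ctr i.1 i.2) (alp Fm act M ω F i)
    (hok i).1 (hok i).2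
  have hYf : ∀ i : V × Fm.P, FiniteDimensional (ZMod 2)
      ↥((Ysub Fm.toPG i.2 (M.ctr i.1 i.2) (alp Fm act M ω F i)).map (pushL Fm.toPG act i)) := by
    intro i
    have := (hY i).1
    infer_instance
  have h1 := D1_sum (fun i : V × Fm.P => M.lev i.1 i.2) (fun i => Asub Fm.toPG act i)
    (fun i => (Ysub Fm.toPG i.2 (M.ctr i.1 i.2) (alp Fm act M ω F i)).map (pushL Fm.toPG act i))
    hYf (Wsub act ω F) J (by
      intro i hi J' hJ' hiJ' hlev z hz y hy u hu hzyu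
      refine D3c M ω F i J' (fun j hj => ⟨?_, hlev j hj⟩) hz hy hu hzyu
      refine hJ1 i hi j (hJ' hj) ?_
      rintro rfl
      exact hiJ' hj) hJ2
  have h2 : finrank (ZMod 2) (Wsub act ω F) ≤ ∑ i ∈ J, finrank (ZMod 2)
      (Ysub Fm.toPG i.2 (M.ctr i.1 i.2) (alp Fm act M ω F i)) := by
    refine h1.trans (Finset.sum_le_sum fun i _ => ?_)
    have := (hY i).1
    exact Submodule.finrank_map_le _ _
  have h3 : (2 : ℝ) * finrank (ZMod 2) (Wsub act ω F) ≤
      (1 - 2 / d - c) * (ldarts act ω F : ℝ) := by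
    have h4 : (∑ i ∈ J, ((alp Fm act M ω F i).card : ℝ)) ≤ ldarts act ω F := by
      exact_mod_cast D3d M ω F J hJ1
    have h5 : (2 : ℝ) * finrank (ZMod 2) (Wsub act ω F) ≤
        ∑ i ∈ J, (1 - 2 / d - c) * ((alp Fm act M ω F i).card : ℝ) := by
      calc (2 : ℝ) * finrank (ZMod 2) (Wsub act ω F)
          ≤ 2 * ((∑ i ∈ J, finrank (ZMod 2)
            (Ysub Fm.toPG i.2 (M.ctr i.1 i.2) (alp Fm act M ω F i)) : ℕ) : ℝ) := by
              have h6 : (finrank (ZMod 2) (Wsub act ω F) : ℝ) ≤ ((∑ i ∈ J, finrank (ZMod 2)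
                (Ysub Fm.toPG i.2 (M.ctr i.1 i.2) (alp Fm act M ω F i)) : ℕ) : ℝ) := by
                exact_mod_cast h2
              linarith
        _ = ∑ i ∈ J, 2 * (finrank (ZMod 2)
            (Ysub Fm.toPG i.2 (M.ctr i.1 i.2) (alp Fm act M ω F i)) : ℝ) := by
              push_cast
              rw [Finset.mul_sum]
        _ ≤ _ := Finset.sum_le_sum fun i _ => (hY i).2.trans
            (mul_le_mul_of_nonneg_right (by linarith) (Nat.cast_nonneg _))
    rw [← Finset.mul_sum] at h5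
    exact h5.trans (mul_le_mul_of_nonneg_left h4 h7)
  have h4 : (ldarts act ω F : ℝ) ≤ 2 * finrank (ZMod 2) (Wsub act ω F) + 2 * F.card := by
    exact_mod_cast hW.2
  have h5 : (2 / (d : ℝ) + c) * ldarts act ω F ≤ 2 * F.card := by linarith
  have h6 : (d : ℝ) - (d - 2 / (2 / d + c)) = 2 / (2 / d + c) := by ring
  rw [h6, div_mul_eq_mul_div, le_div_iff₀ hpos]
  linarith

end P089
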