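import Mathlib

/-!
# P089 part D, module D1: the filtration argument (linear algebra)

`D1_step`: the quotient map `q = B.mkQ` has on `W ⊓ (A ⊔ B)` kernel `W ⊓ B` and range inside `q(Y)`.
`D1_sum`: induction on `J`, removing an element of maximal level.
-/

open Module

namespace P089

theorem D1_step {K M : Type*} [Field K] [AddCommGroup M] [Module K M] (W A B Y : Submodule K M)
    [FiniteDimensional K W] [FiniteDimensional K Y]
    (h : ∀ z ∈ W, ∀ y ∈ A, ∀ u ∈ B, z = y + u → y ∈ Y) :
    finrank K ↥(W ⊓ (A ⊔ B)) ≤ finrank K ↥(W ⊓ B) + finrank K Y := by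
  have hWf : FiniteDimensional K ↥(W ⊓ (A ⊔ B)) :=
    Submodule.finiteDimensional_of_le inf_le_left
  let f : ↥(W ⊓ (A ⊔ B)) →ₗ[K] M ⧸ B := B.mkQ.comp (W ⊓ (A ⊔ B)).subtype
  have h1 := f.finrank_range_add_finrank_ker
  have h2 : finrank K (LinearMap.range f) ≤ finrank K Y := by
    have h3 : LinearMap.range f ≤ Y.map B.mkQ := by
      rintro _ ⟨⟨z, hz1, hz2⟩, rfl⟩
      obtain ⟨y, hy, u, hu, rfl⟩ := Submodule.mem_sup.1 hz2
      refine ⟨y, h _ hz1 y hy u hu rfl, ?_⟩
      change Submodule.Quotient.mk y = Submodule.Quotient.mk (y + u)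
      rw [Submodule.Quotient.eq]
      have h4 : y - (y + u) = -u := by abel
      rw [h4]
      exact B.neg_mem hu
    exact (Submodule.finrank_mono h3).trans (Submodule.finrank_map_le _ _)
  have h5 : finrank K (LinearMap.ker f) ≤ finrank K ↥(W ⊓ B) := by
    have h6 : (LinearMap.ker f).map (W ⊓ (A ⊔ B)).subtype ≤ W ⊓ B := by
      rintro _ ⟨⟨z, hz1, hz2⟩, hz3, rfl⟩
      refine ⟨hz1, ?_⟩
      have h7 : Submodule.Quotient.mk (p := B) z = 0 := hz3
      rwa [Submodule.Quotient.mk_eq_zero] at h7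
    have h8 : finrank K ↥((LinearMap.ker f).map (W ⊓ (A ⊔ B)).subtype) =
        finrank K (LinearMap.ker f) :=
      by
      exact LinearEquiv.finrank_eq ((Submodule.equivMapOfInjective _ (Submodule.subtype_injective _) _).symm)
    rw [← h8]
    have : FiniteDimensional K ↥(W ⊓ B) := Submodule.finiteDimensional_of_le inf_le_left
    exact Submodule.finrank_mono h6
  omega

theorem D1_sum {K M ι : Type*} [Field K] [AddCommGroup M] [Module K M] [DecidableEq ι]
    (lev : ι → ℕ) (A Y : ι → Submodule K M) (hY : ∀ i, FiniteDimensional K (Y i))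
    (W : Submodule K M) [FiniteDimensional K W] (J : Finset ι)
    (h : ∀ i ∈ J, ∀ J' ⊆ J, i ∉ J' → (∀ j ∈ J', lev j ≤ lev i) →
      ∀ z ∈ W, ∀ y ∈ A i, ∀ u ∈ ⨆ j ∈ J', A j, z = y + u → y ∈ Y i)
    (hW : W ≤ ⨆ j ∈ J, A j) :
    finrank K W ≤ ∑ i ∈ J, finrank K (Y i) := by
  have key : ∀ (n : ℕ) (J' : Finset ι), J'.card = n → J' ⊆ J →
      finrank K ↥(W ⊓ ⨆ j ∈ J', A j) ≤ ∑ i ∈ J', finrank K (Y i) := by
    intro n
    induction n with
    | zero =>
      intro J' hJ' _
      rw [Finset.card_eq_zero] at hJ'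
      subst hJ'
      simp
    | succ n ih =>
      intro J' hJ' hsub
      have hne : J'.Nonempty := by
        rw [← Finset.card_pos, hJ']
        omega
      obtain ⟨i, hi, hmax⟩ := J'.exists_max_image lev hne
      have h1 : (J'.erase i).card = n := by
        rw [Finset.card_erase_of_mem hi, hJ']
        rfl
      have h2 := ih (J'.erase i) h1 ((Finset.erase_subset _ _).trans hsub)
      have := hY i
      have h3 := D1_step W (A i) (⨆ j ∈ J'.erase i, A j) (Y i)
        (h i (hsub hi) (J'.erase i) ((Finset.erase_subset _ _).trans hsub)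
          (Finset.notMem_erase _ _) (fun j hj => hmax j (Finset.mem_of_mem_erase hj)))
      have h4 : (⨆ j ∈ J', A j) = A i ⊔ ⨆ j ∈ J'.erase i, A j := by
        conv_lhs => rw [← Finset.insert_erase hi]
        rw [Finset.iSup_insert]
      rw [h4, ← Finset.add_sum_erase J' _ hi]
      omega
  have h1 := key J.card J rfl subset_rfl
  rwa [inf_eq_left.2 hW] at h1

end P089
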