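import Vale.Agent.Lib.P089.D.DW

/-!
# P089 part D, module D2a: the core of the space of cycles

`(q, s) ∈ bet` means `(q, s) ∈ α` and `y q s ≠ 0` for some `y ∈ Ysub`.  `two`: at a vertex `q` of `ves` the sum of `y q ·` is
zero, so there are two colours `s0 ≠ s1` with `y q s ≠ 0`; as `q` is outside the ball, `(q, s1) ∈ α`.
-/

namespace P089

open scoped Classical

private theorem d2a_mem_bet {S : Type} [Fintype S] {Pg : PG S} {x a : Pg.P}
    {α : Finset (Pg.P × S)} {q : Pg.P} {s : S} :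
    (q, s) ∈ bet Pg x a α ↔ (q, s) ∈ α ∧ ∃ y ∈ Ysub Pg x a α, y q s ≠ 0 := by
  unfold bet
  exact Finset.mem_filter

private theorem d2a_mem_ves {S : Type} [Fintype S] {Pg : PG S} {x a : Pg.P}
    {α : Finset (Pg.P × S)} {q : Pg.P} :
    q ∈ ves Pg x a α ↔ q ∉ Bl Pg a ∧ ∃ s, (q, s) ∈ bet Pg x a α := by
  unfold ves
  rw [Finset.mem_filter, Finset.mem_image]
  constructor
  · rintro ⟨⟨p, hp, rfl⟩, h⟩
    exact ⟨h, p.2, hp⟩
  · rintro ⟨h, s, hs⟩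
    exact ⟨⟨(q, s), hs, rfl⟩, h⟩

theorem D2a {S : Type} [Fintype S] (Pg : PG S) {x a : Pg.P} {α : Finset (Pg.P × S)}
    (h : AlphaOK Pg x a α) : Core Pg a (bet Pg x a α) (ves Pg x a α) := by
  refine ⟨?_, fun q => d2a_mem_ves, ?_, ?_⟩
  · intro q s hqs
    obtain ⟨hα, y, hy, hne⟩ := d2a_mem_bet.1 hqs
    obtain ⟨q', hq', hα', hB⟩ := h.dfd q s hα
    have hbet : (q', s) ∈ bet Pg x a α := by
      refine d2a_mem_bet.2 ⟨hα', y, hy, ?_⟩
      rw [hy.1.symm q s q' hq']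
      exact hne
    refine ⟨q', hq', hbet, ?_⟩
    by_cases hq : q ∈ Bl Pg a
    · right
      exact d2a_mem_ves.2 ⟨fun hc => hB ⟨hq, hc⟩, s, hbet⟩
    · left
      exact d2a_mem_ves.2 ⟨hq, s, hqs⟩
  · intro q hq s
    obtain ⟨hB, s0, hs0⟩ := d2a_mem_ves.1 hq
    obtain ⟨hα, y, hy, hne⟩ := d2a_mem_bet.1 hs0
    by_cases hs : s0 = s
    · subst hs
      have h1 : ∃ s1, s1 ≠ s0 ∧ y q s1 ≠ 0 := by
        by_contra hcon
        push Not at hcon
        have h2 := hy.1.bd q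
        rw [Finset.sum_eq_single s0 (fun s1 _ h3 => hcon s1 h3)
          (fun h3 => absurd (Finset.mem_univ _) h3)] at h2
        exact hne h2
      obtain ⟨s1, h1, h2⟩ := h1
      refine ⟨s1, h1, ?_⟩
      obtain ⟨h3, -⟩ := hy.1.supp q s1 h2
      obtain ⟨q', hq'⟩ := Option.isSome_iff_exists.1 h3
      rcases hy.2 q s1 q' hq' h2 with h4 | h4
      · exact d2a_mem_bet.2 ⟨h4, y, hy, h2⟩
      · exact absurd h4.1 hB
    · exact ⟨s0, hs, hs0⟩
  · intro q hq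
    obtain ⟨-, s0, hs0⟩ := d2a_mem_ves.1 hq
    obtain ⟨hα, -⟩ := d2a_mem_bet.1 hs0
    obtain ⟨w1, hw1⟩ := h.conn_a
    obtain ⟨w2, hw2⟩ := h.conn _ hα
    exact ⟨w1.reverse ++ w2, (dwalk_append_some w2 (walk_rev Pg hw1)).trans hw2⟩

end P089
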