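import Vale.Agent.Lib.P089.Interface

/-!
# P089 part D: definitions (isoperimetry)

`Bl Pg a`: ball of radius `3 L` around the position `a`.
`Ysub Pg x a α`: cycles of the component of `x` supported on the darts `α` and on the darts inside the ball `Bl Pg a`.
`Core`: the set `β` of darts of `α` which occur in the support of an element of `Ysub`, and the set `Vs` of the
endpoints of `β` outside the ball.
`Dep`: functions on `Vs` constant along `β`, zero at the vertices joined by `β` to the ball.
-/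

namespace P089

open scoped Classical
open Module

section Pos

variable {S : Type} (Pg : PG S)

/-- ball of radius `3 L` around the position `a` -/
def Bl (a : Pg.P) : Set Pg.P := {y | ∃ w, w.length ≤ 3 * Pg.L a ∧ walk Pg.nb a w = some y}

/-- `β` is a set of darts, `Vs` the set of its endpoints outside the ball around `a`;
every vertex of `Vs` has at least two darts in `β` -/
structure Core (a : Pg.P) (β : Finset (Pg.P × S)) (Vs : Finset Pg.P) : Prop where
  dfd : ∀ q s, (q, s) ∈ β → ∃ q', Pg.nb q s = some q' ∧ (q', s) ∈ β ∧ (q ∈ Vs ∨ q' ∈ Vs)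
  memVs : ∀ q, q ∈ Vs ↔ q ∉ Bl Pg a ∧ ∃ s, (q, s) ∈ β
  two : ∀ q ∈ Vs, ∀ s, ∃ s', s' ≠ s ∧ (q, s') ∈ β
  conn : ∀ q ∈ Vs, ∃ w, walk Pg.nb a w = some q

/-- functions on `Vs` (extended by zero) constant along `β` -/
def Dep (β : Finset (Pg.P × S)) (Vs : Finset Pg.P) : Submodule (ZMod 2) (Pg.P → ZMod 2) where
  carrier := {f | (∀ q, q ∉ Vs → f q = 0) ∧
    ∀ q s q', (q, s) ∈ β → Pg.nb q s = some q' → f q = f q'}
  add_mem' := by
    intro f g hf hg
    refine ⟨fun q hq => ?_, fun q s q' h1 h2 => ?_⟩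
    · rw [Pi.add_apply, hf.1 q hq, hg.1 q hq, add_zero]
    · rw [Pi.add_apply, Pi.add_apply, hf.2 q s q' h1 h2, hg.2 q s q' h1 h2]
  zero_mem' := ⟨fun _ _ => rfl, fun _ _ _ _ _ => rfl⟩
  smul_mem' := by
    intro c f hf
    refine ⟨fun q hq => ?_, fun q s q' h1 h2 => ?_⟩
    · rw [Pi.smul_apply, hf.1 q hq, smul_zero]
    · rw [Pi.smul_apply, Pi.smul_apply, hf.2 q s q' h1 h2]

variable [Fintype S]

/-- cycles of the component of `x` supported on `α` and inside the ball around `a` -/
def Ysub (x a : Pg.P) (α : Finset (Pg.P × S)) : Submodule (ZMod 2) (Pg.P → S → ZMod 2) where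
  carrier := {y | PCyc Pg x y ∧ ∀ q s q', Pg.nb q s = some q' → y q s ≠ 0 →
    (q, s) ∈ α ∨ (q ∈ Bl Pg a ∧ q' ∈ Bl Pg a)}
  add_mem' := by
    intro y z hy hz
    have key : ∀ q s, (y + z) q s ≠ 0 → y q s ≠ 0 ∨ z q s ≠ 0 := by
      intro q s h
      by_contra hcon
      rw [not_or, not_not, not_not] at hcon
      apply h
      rw [Pi.add_apply, Pi.add_apply, hcon.1, hcon.2, add_zero]
    refine ⟨⟨fun q s h => ?_, fun q s q' h => ?_, fun q => ?_⟩, fun q s q' h1 h2 => ?_⟩
    · rcases key q s h with h | h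
      · exact hy.1.supp q s h
      · exact hz.1.supp q s h
    · rw [Pi.add_apply, Pi.add_apply, Pi.add_apply, Pi.add_apply, hy.1.symm q s q' h,
        hz.1.symm q s q' h]
    · simp only [Pi.add_apply]
      rw [Finset.sum_add_distrib, hy.1.bd q, hz.1.bd q, add_zero]
    · rcases key q s h2 with h | h
      · exact hy.2 q s q' h1 h
      · exact hz.2 q s q' h1 h
  zero_mem' := by
    refine ⟨⟨fun q s h => absurd rfl h, fun _ _ _ _ => rfl, fun q => ?_⟩,
      fun q s q' _ h => absurd rfl h⟩
    simp only [Pi.zero_apply, Finset.sum_const_zero]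
  smul_mem' := by
    intro c y hy
    have key : ∀ q s, (c • y) q s ≠ 0 → y q s ≠ 0 := by
      intro q s h hcon
      apply h
      rw [Pi.smul_apply, Pi.smul_apply, hcon, smul_zero]
    refine ⟨⟨fun q s h => hy.1.supp q s (key q s h), fun q s q' h => ?_, fun q => ?_⟩,
      fun q s q' h1 h2 => hy.2 q s q' h1 (key q s h2)⟩
    · rw [Pi.smul_apply, Pi.smul_apply, Pi.smul_apply, Pi.smul_apply, hy.1.symm q s q' h]
    · simp only [Pi.smul_apply]
      rw [← Finset.smul_sum, hy.1.bd q, smul_zero]

/-- the darts of `α` in the support of an element of `Ysub` -/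
noncomputable def bet (x a : Pg.P) (α : Finset (Pg.P × S)) : Finset (Pg.P × S) :=
  α.filter fun p => ∃ y ∈ Ysub Pg x a α, y p.1 p.2 ≠ 0

/-- endpoints of `bet` outside the ball -/
noncomputable def ves (x a : Pg.P) (α : Finset (Pg.P × S)) : Finset Pg.P :=
  ((bet Pg x a α).image Prod.fst).filter fun q => q ∉ Bl Pg a

/-- hypotheses on the set of darts `α` -/
structure AlphaOK (x a : Pg.P) (α : Finset (Pg.P × S)) : Prop where
  conn_a : ∃ w, walk Pg.nb x w = some a
  conn : ∀ p ∈ α, ∃ w, walk Pg.nb x w = some p.1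
  dfd : ∀ q s, (q, s) ∈ α → ∃ q', Pg.nb q s = some q' ∧ (q', s) ∈ α ∧
    ¬ (q ∈ Bl Pg a ∧ q' ∈ Bl Pg a)

end Pos

section Vlev

variable {S : Type} [Fintype S] {V : Type}

/-- cycles supported on linked darts inside `F` -/
def Wsub (act : V → S → V) (ω : V → Option (Finset S)) (F : Finset V) :
    Submodule (ZMod 2) (V → S → ZMod 2) where
  carrier := {z | (∀ v s, z (act v s) s = z v s) ∧ (∀ v, ∑ s, z v s = 0) ∧
    ∀ v s, z v s ≠ 0 → v ∈ F ∧ act v s ∈ F ∧ link act ω v s}
  add_mem' := by
    intro y z hy hz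
    refine ⟨fun v s => ?_, fun v => ?_, fun v s h => ?_⟩
    · rw [Pi.add_apply, Pi.add_apply, Pi.add_apply, Pi.add_apply, hy.1, hz.1]
    · simp only [Pi.add_apply]
      rw [Finset.sum_add_distrib, hy.2.1 v, hz.2.1 v, add_zero]
    · by_cases h1 : y v s = 0
      · have h2 : z v s ≠ 0 := by
          intro h2
          apply h
          rw [Pi.add_apply, Pi.add_apply, h1, h2, add_zero]
        exact hz.2.2 v s h2
      · exact hy.2.2 v s h1
  zero_mem' := by
    refine ⟨fun _ _ => rfl, fun v => ?_, fun v s h => absurd rfl h⟩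
    simp only [Pi.zero_apply, Finset.sum_const_zero]
  smul_mem' := by
    intro c y hy
    refine ⟨fun v s => ?_, fun v => ?_, fun v s h => ?_⟩
    · rw [Pi.smul_apply, Pi.smul_apply, Pi.smul_apply, Pi.smul_apply, hy.1]
    · simp only [Pi.smul_apply]
      rw [← Finset.smul_sum, hy.2.1 v, smul_zero]
    · refine hy.2.2 v s fun h1 => h ?_
      rw [Pi.smul_apply, Pi.smul_apply, h1, smul_zero]

variable (Pg : PG S) (act : V → S → V)

/-- two states belong to the same copy -/
def Same (i j : V × Pg.P) : Prop := ∃ w, walk Pg.nb i.2 w = some j.2 ∧ j.1 = go act i.1 w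

/-- cycles of the component of `x` -/
def PCsub (x : Pg.P) : Submodule (ZMod 2) (Pg.P → S → ZMod 2) where
  carrier := {y | PCyc Pg x y}
  add_mem' := by
    intro y z hy hz
    refine ⟨fun q s h => ?_, fun q s q' h => ?_, fun q => ?_⟩
    · by_cases h1 : y q s = 0
      · refine hz.supp q s fun h2 => h ?_
        rw [Pi.add_apply, Pi.add_apply, h1, h2, add_zero]
      · exact hy.supp q s h1
    · rw [Pi.add_apply, Pi.add_apply, Pi.add_apply, Pi.add_apply, hy.symm q s q' h,
        hz.symm q s q' h]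
    · simp only [Pi.add_apply]
      rw [Finset.sum_add_distrib, hy.bd q, hz.bd q, add_zero]
  zero_mem' := by
    refine ⟨fun q s h => absurd rfl h, fun _ _ _ _ => rfl, fun q => ?_⟩
    simp only [Pi.zero_apply, Finset.sum_const_zero]
  smul_mem' := by
    intro c y hy
    refine ⟨fun q s h => hy.supp q s fun h1 => h ?_, fun q s q' h => ?_, fun q => ?_⟩
    · rw [Pi.smul_apply, Pi.smul_apply, h1, smul_zero]
    · rw [Pi.smul_apply, Pi.smul_apply, Pi.smul_apply, Pi.smul_apply, hy.symm q s q' h]
    · simp only [Pi.smul_apply]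
      rw [← Finset.smul_sum, hy.bd q, smul_zero]

/-- transport of chains from positions to the copy of the state `i` -/
noncomputable def pushL (i : V × Pg.P) :
    (Pg.P → S → ZMod 2) →ₗ[ZMod 2] (V → S → ZMod 2) where
  toFun y u s := if h : ∃ q w, walk Pg.nb i.2 w = some q ∧ u = go act i.1 w
    then y h.choose s else 0
  map_add' := by
    intro y z
    funext u s
    simp only [Pi.add_apply]
    split_ifs <;> simp
  map_smul' := by
    intro c y
    funext u s
    simp only [Pi.smul_apply, RingHom.id_apply]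
    split_ifs <;> simp

/-- cycles of the copy of the state `i` -/
noncomputable def Asub (i : V × Pg.P) : Submodule (ZMod 2) (V → S → ZMod 2) :=
  (PCsub Pg i.2).map (pushL Pg act i)

/-- the vertex at position `q` of the copy of `i` (`i.1` if `q` is in another component) -/
noncomputable def pt (i : V × Pg.P) (q : Pg.P) : V :=
  if h : ∃ w, walk Pg.nb i.2 w = some q then go act i.1 h.choose else i.1

end Vlev

section Fam

variable {S : Type} [Fintype S] {V : Type} {d : ℕ} (Fm : Fam S d) (act : V → S → V)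

/-- linked darts inside `F` of the copy of `i`, outside the ball around its centre -/
noncomputable def alp (M : Model Fm.toPG V act) (ω : V → Option (Finset S)) (F : Finset V)
    (i : V × Fm.P) : Finset (Fm.P × S) :=
  ((Fm.X (Fm.idx i.2)) ×ˢ (Finset.univ : Finset S)).filter fun p =>
    (∃ q', Fm.nb p.1 p.2 = some q' ∧
      ¬ (p.1 ∈ Bl Fm.toPG (M.ctr i.1 i.2) ∧ q' ∈ Bl Fm.toPG (M.ctr i.1 i.2))) ∧
    pt Fm.toPG act i p.1 ∈ F ∧ act (pt Fm.toPG act i p.1) p.2 ∈ F ∧
    link act ω (pt Fm.toPG act i p.1) p.2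

end Fam

end P089
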