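import Vale.Agent.Lib.P089.D.DW

/-!
# P089 part D, module DM: copies in a model

`go_eq`: `w ++ w'.reverse` is closed at `x`, so `full` shows `go v (w ++ w'.reverse) = v`.
`meet`: at the common vertex `u` the positions `q` (in the copy of `i`) and `q'` (copy of `j`) are different (otherwise
`Same`), `lev u q' = lev j ≤ lev i = lev u q`, so `peel` applies to `(u, q, q')`; `ctr u q = ctr i`, `L q = L (ctr i)`.
-/

namespace P089

open scoped Classical

variable {S : Type} {V : Type} {Pg : PG S} {act : V → S → V}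

theorem Model.go_eq (M : Model Pg V act) {v : V} {x q : Pg.P} {w w' : List S}
    (h : walk Pg.nb x w = some q) (h' : walk Pg.nb x w' = some q) :
    go act v w = go act v w' := by
  have h1 : walk Pg.nb x (w ++ w'.reverse) = some x := by
    rw [dwalk_append_some _ h]
    exact walk_rev Pg h'
  have h2 : go act v (w ++ w'.reverse) = v := (M.full v x _ x h1).mpr rfl
  rw [dgo_append] at h2
  have h3 := go_rev M.inv (go act v w) w'.reverse
  rw [h2, List.reverse_reverse] at h3
  exact h3.symm

theorem Model.go_inj (M : Model Pg V act) {v : V} {x q q' : Pg.P} {w w' : List S}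
    (h : walk Pg.nb x w = some q) (h' : walk Pg.nb x w' = some q')
    (e : go act v w = go act v w') : q = q' := by
  have h1 : walk Pg.nb q (w.reverse ++ w') = some q' := by
    rw [dwalk_append_some _ (walk_rev Pg h)]
    exact h'
  have h2 : go act (go act v w) (w.reverse ++ w') = go act v w := by
    rw [dgo_append, go_rev M.inv]
    exact e.symm
  exact ((M.full _ q _ q' h1).mp h2).symm

/-- one step of a walk -/
private theorem walk_cons_some {x q : Pg.P} {s : S} {w : List S}
    (h : walk Pg.nb x (s :: w) = some q) :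
    ∃ x', Pg.nb x s = some x' ∧ walk Pg.nb x' w = some q := by
  have h1 : (Pg.nb x s).bind (fun v' => walk Pg.nb v' w) = some q := h
  exact Option.bind_eq_some_iff.mp h1

theorem Model.lev_go (M : Model Pg V act) {v : V} {x q : Pg.P} {w : List S}
    (h : walk Pg.nb x w = some q) : M.lev (go act v w) q = M.lev v x := by
  induction w generalizing v x with
  | nil =>
    have h1 : x = q := Option.some.inj h
    subst h1
    rfl
  | cons s w ih =>
    obtain ⟨x', hx, hw⟩ := walk_cons_some h
    have h1 : go act v (s :: w) = go act (act v s) w := rfl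
    rw [h1, ih hw]
    exact M.lev_nb v x s x' hx

theorem Model.ctr_go (M : Model Pg V act) {v : V} {x q : Pg.P} {w : List S}
    (h : walk Pg.nb x w = some q) : M.ctr (go act v w) q = M.ctr v x := by
  induction w generalizing v x with
  | nil =>
    have h1 : x = q := Option.some.inj h
    subst h1
    rfl
  | cons s w ih =>
    obtain ⟨x', hx, hw⟩ := walk_cons_some h
    have h1 : go act v (s :: w) = go act (act v s) w := rfl
    rw [h1, ih hw]
    exact M.ctr_nb v x s x' hx

/-- there are no loops (`Pg.col`, `full` for one letter words, `Pg.irr`) -/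
theorem Model.act_ne (M : Model Pg V act) (v : V) (s : S) : act v s ≠ v := by
  intro h
  obtain ⟨x, hx⟩ := Pg.col s
  obtain ⟨y, hy⟩ := Option.isSome_iff_exists.mp hx
  have h1 : walk Pg.nb x [s] = some y := by
    have h2 : walk Pg.nb x [s] = (Pg.nb x s).bind (fun v' => walk Pg.nb v' []) := rfl
    rw [h2, hy]
    rfl
  have h2 : y = x := (M.full v x [s] y h1).mp h
  subst h2
  exact Pg.irr y s hy

theorem Model.pt_eq (M : Model Pg V act) {i : V × Pg.P} {q : Pg.P} {w : List S}
    (h : walk Pg.nb i.2 w = some q) : pt Pg act i q = go act i.1 w := by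
  have h1 : ∃ w, walk Pg.nb i.2 w = some q := ⟨w, h⟩
  rw [pt, dif_pos h1]
  exact M.go_eq h1.choose_spec h

theorem Model.same_refl (M : Model Pg V act) (i : V × Pg.P) : Same Pg act i i :=
  ⟨[], rfl, rfl⟩

theorem Model.same_symm (M : Model Pg V act) {i j : V × Pg.P} (h : Same Pg act i j) :
    Same Pg act j i := by
  obtain ⟨w, h1, h2⟩ := h
  refine ⟨w.reverse, walk_rev Pg h1, ?_⟩
  rw [h2, go_rev M.inv]

theorem Model.same_trans (M : Model Pg V act) {i j k : V × Pg.P} (h : Same Pg act i j)
    (h' : Same Pg act j k) : Same Pg act i k := by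
  obtain ⟨w, h1, h2⟩ := h
  obtain ⟨w', h1', h2'⟩ := h'
  refine ⟨w ++ w', ?_, ?_⟩
  · rw [dwalk_append_some _ h1]
    exact h1'
  · rw [dgo_append, ← h2]
    exact h2'

/-- two states at the same vertex and the same position reached from `i` and `j` -/
theorem Model.same_of_meet (M : Model Pg V act) {i j : V × Pg.P} {w w' : List S} {q : Pg.P}
    (h : walk Pg.nb i.2 w = some q) (h' : walk Pg.nb j.2 w' = some q)
    (e : go act i.1 w = go act j.1 w') : Same Pg act i j := by
  refine ⟨w ++ w'.reverse, ?_, ?_⟩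
  · rw [dwalk_append_some _ h]
    exact walk_rev Pg h'
  · rw [dgo_append, e, go_rev M.inv]

theorem Model.meet (M : Model Pg V act) {i j : V × Pg.P} (hij : ¬ Same Pg act i j)
    (hl : M.lev j.1 j.2 ≤ M.lev i.1 i.2) {w w' : List S} {q q' : Pg.P}
    (h : walk Pg.nb i.2 w = some q) (h' : walk Pg.nb j.2 w' = some q')
    (e : go act i.1 w = go act j.1 w') : q ∈ Bl Pg (M.ctr i.1 i.2) := by
  have hne : q ≠ q' := by
    rintro rfl
    exact hij (M.same_of_meet h h' e)
  have h1 : M.lev (go act i.1 w) q = M.lev i.1 i.2 := M.lev_go h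
  have h2 : M.lev (go act i.1 w) q' = M.lev j.1 j.2 := by
    rw [e]
    exact M.lev_go h'
  obtain ⟨u, hu1, hu2⟩ := M.peel (go act i.1 w) q q' hne (by rw [h1, h2]; exact hl)
  rw [M.ctr_go h] at hu2
  refine ⟨u, ?_, hu2⟩
  rw [← walk_L Pg hu2]
  exact hu1

theorem Model.active_go [Fintype S] (M : Model Pg V act) {ω : V → Option (Finset S)} {v : V}
    {x q : Pg.P} {w : List S} (h : walk Pg.nb x w = some q) :
    Active Pg act ω v x ↔ Active Pg act ω (go act v w) q := by
  constructor
  · intro hA w2 y hy
    have h1 := hA (w ++ w2) y (by rw [dwalk_append_some _ h]; exact hy)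
    rwa [dgo_append] at h1
  · intro hA w2 y hy
    have h1 := hA (w.reverse ++ w2) y (by rw [dwalk_append_some _ (walk_rev Pg h)]; exact hy)
    rwa [dgo_append, go_rev M.inv] at h1

section Push

variable [Fintype S]

theorem Model.pushL_apply (M : Model Pg V act) (i : V × Pg.P) (y : Pg.P → S → ZMod 2) {w : List S}
    {q : Pg.P} (h : walk Pg.nb i.2 w = some q) (s : S) :
    pushL Pg act i y (go act i.1 w) s = y q s := by
  have h1 : ∃ q' w', walk Pg.nb i.2 w' = some q' ∧ go act i.1 w = go act i.1 w' :=
    ⟨q, w, h, rfl⟩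
  have h2 : pushL Pg act i y (go act i.1 w) s = y h1.choose s := dif_pos h1
  rw [h2]
  obtain ⟨w', hw', he⟩ := h1.choose_spec
  have h3 : q = h1.choose := M.go_inj h hw' he
  rw [← h3]

theorem Model.pushL_ne (M : Model Pg V act) (i : V × Pg.P) (y : Pg.P → S → ZMod 2) {u : V} {s : S}
    (h : pushL Pg act i y u s ≠ 0) :
    ∃ q w, walk Pg.nb i.2 w = some q ∧ u = go act i.1 w ∧ y q s ≠ 0 := by
  by_cases h1 : ∃ q w, walk Pg.nb i.2 w = some q ∧ u = go act i.1 w
  · obtain ⟨q, w, hw, hu⟩ := h1
    refine ⟨q, w, hw, hu, ?_⟩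
    rw [hu, M.pushL_apply i y hw s] at h
    exact h
  · exact absurd (dif_neg h1) h

theorem Model.isPush (M : Model Pg V act) (i : V × Pg.P) (y : Pg.P → S → ZMod 2)
    {z : V → S → ZMod 2} (h : IsPush Pg act i.1 i.2 y z) : z = pushL Pg act i y := by
  funext u s
  by_cases h1 : ∃ q w, walk Pg.nb i.2 w = some q ∧ u = go act i.1 w
  · obtain ⟨q, w, hw, hu⟩ := h1
    rw [hu, h.1 w q s hw, M.pushL_apply i y hw s]
  · have h2 : pushL Pg act i y u s = 0 := dif_neg h1
    rw [h2]
    by_contra h3
    obtain ⟨w, q, hw, hu⟩ := h.2 u s h3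
    exact h1 ⟨q, w, hw, hu⟩

/-- the copies of two states of the same copy have the same cycles -/
theorem Model.asub_eq (M : Model Pg V act) {i j : V × Pg.P} (h : Same Pg act i j) :
    Asub Pg act i = Asub Pg act j := by
  obtain ⟨w0, h0, h0'⟩ := h
  have hpush : pushL Pg act i = pushL Pg act j := by
    apply LinearMap.ext
    intro y
    refine M.isPush j y ⟨?_, ?_⟩
    · intro w q s hw
      have h1 : walk Pg.nb i.2 (w0 ++ w) = some q := by
        rw [dwalk_append_some _ h0]
        exact hw
      have h2 : go act i.1 (w0 ++ w) = go act j.1 w := by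
        rw [dgo_append, ← h0']
      rw [← h2]
      exact M.pushL_apply i y h1 s
    · intro u s hu
      obtain ⟨q, w, hw, hu', _⟩ := M.pushL_ne i y hu
      refine ⟨w0.reverse ++ w, q, ?_, ?_⟩
      · rw [dwalk_append_some _ (walk_rev Pg h0)]
        exact hw
      · rw [dgo_append, h0', go_rev M.inv]
        exact hu'
  have hsub : PCsub Pg i.2 = PCsub Pg j.2 := by
    apply le_antisymm
    · intro y hy
      have hy' : PCyc Pg i.2 y := hy
      refine (show PCyc Pg j.2 y from ⟨fun q s hq => ?_, hy'.symm, hy'.bd⟩)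
      obtain ⟨h1, w, hw⟩ := hy'.supp q s hq
      refine ⟨h1, w0.reverse ++ w, ?_⟩
      rw [dwalk_append_some _ (walk_rev Pg h0)]
      exact hw
    · intro y hy
      have hy' : PCyc Pg j.2 y := hy
      refine (show PCyc Pg i.2 y from ⟨fun q s hq => ?_, hy'.symm, hy'.bd⟩)
      obtain ⟨h1, w, hw⟩ := hy'.supp q s hq
      refine ⟨h1, w0 ++ w, ?_⟩
      rw [dwalk_append_some _ h0]
      exact hw
  rw [Asub, Asub, hpush, hsub]

end Push

end P089
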