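import Vale.Agent.Lib.P089.D.DDefs

/-!
# P089 part D, module DW: words and walks
-/

namespace P089

open scoped Classical

theorem dwalk_append {V S : Type} (nb : V → S → Option V) (v : V) (w w' : List S) :
    walk nb v (w ++ w') = (walk nb v w).bind fun u => walk nb u w' := by
  induction w generalizing v with
  | nil => rfl
  | cons s w ih =>
    rw [List.cons_append]
    show ((nb v s).bind fun v' => walk nb v' (w ++ w')) =
      ((nb v s).bind fun v' => walk nb v' w).bind fun u => walk nb u w'
    cases nb v s with
    | none => rfl
    | some v' => exact ih v'

theorem dwalk_append_some {V S : Type} {nb : V → S → Option V} {v u : V} {w : List S}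
    (w' : List S) (h : walk nb v w = some u) : walk nb v (w ++ w') = walk nb u w' := by
  rw [dwalk_append, h]
  rfl

theorem walk_split {V S : Type} {nb : V → S → Option V} {v u : V} {w w' : List S}
    (h : walk nb v (w ++ w') = some u) :
    ∃ u', walk nb v w = some u' ∧ walk nb u' w' = some u := by
  rw [dwalk_append] at h
  cases h1 : walk nb v w with
  | none =>
    rw [h1] at h
    exact absurd h (by simp)
  | some u' =>
    rw [h1] at h
    exact ⟨u', rfl, h⟩

theorem walk_snoc {V S : Type} {nb : V → S → Option V} {v u u' : V} {w : List S} {s : S}
    (h : walk nb v w = some u) (h' : nb u s = some u') : walk nb v (w ++ [s]) = some u' := by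
  rw [dwalk_append_some _ h]
  show ((nb u s).bind fun v' => walk nb v' []) = some u'
  rw [h']
  rfl

private theorem dw_cons {V S : Type} {nb : V → S → Option V} {v u : V} {w : List S} {s : S}
    (h : walk nb v (s :: w) = some u) : ∃ v', nb v s = some v' ∧ walk nb v' w = some u := by
  change ((nb v s).bind fun v' => walk nb v' w) = some u at h
  cases h1 : nb v s with
  | none =>
    rw [h1] at h
    exact absurd h (by simp)
  | some v' =>
    rw [h1] at h
    exact ⟨v', rfl, h⟩

private theorem dw_snoc {V S : Type} {nb : V → S → Option V} {v u : V} {w : List S} {s : S}
    (h : walk nb v (w ++ [s]) = some u) : ∃ v', walk nb v w = some v' ∧ nb v' s = some u := by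
  obtain ⟨v', h1, h2⟩ := walk_split h
  obtain ⟨v'', h3, h4⟩ := dw_cons h2
  change some v'' = some u at h4
  exact ⟨v', h1, by rw [h3, h4]⟩

theorem walk_rev {S : Type} (Pg : PG S) {x y : Pg.P} {w : List S}
    (h : walk Pg.nb x w = some y) : walk Pg.nb y w.reverse = some x := by
  induction w generalizing x with
  | nil =>
    change some x = some y at h
    rw [Option.some.inj h]
    rfl
  | cons s w ih =>
    obtain ⟨x', h1, h2⟩ := dw_cons h
    rw [List.reverse_cons]
    exact walk_snoc (ih h2) (Pg.symm x s x' h1)

theorem walk_L {S : Type} (Pg : PG S) {x y : Pg.P} {w : List S}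
    (h : walk Pg.nb x w = some y) : Pg.L y = Pg.L x := by
  induction w generalizing x with
  | nil =>
    change some x = some y at h
    rw [Option.some.inj h]
  | cons s w ih =>
    obtain ⟨x', h1, h2⟩ := dw_cons h
    rw [ih h2, Pg.L_nb x s x' h1]

theorem dgo_append {V S : Type} (act : V → S → V) (v : V) (w w' : List S) :
    go act v (w ++ w') = go act (go act v w) w' := by
  exact List.foldl_append

theorem go_rev {V S : Type} {act : V → S → V} (inv : ∀ v s, act (act v s) s = v) (v : V)
    (w : List S) : go act (go act v w) w.reverse = v := by
  induction w generalizing v with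
  | nil => rfl
  | cons s w ih =>
    rw [List.reverse_cons, dgo_append]
    have h1 : go act (go act v (s :: w)) w.reverse = act v s := ih (act v s)
    rw [h1]
    exact inv v s

/-- a reduced word extended by a colour different from its last colour -/
theorem red_snoc {S : Type} {w : List S} {s : S} (h : Red w)
    (hs : ∀ t, w.getLast? = some t → t ≠ s) : Red (w ++ [s]) := by
  refine List.isChain_append.2 ⟨h, List.isChain_singleton _, ?_⟩
  intro x hx y hy
  have h1 : y = s := by
    have h2 : ([s] : List S).head? = some s := rfl
    rw [h2] at hy
    exact (Option.some.inj hy).symm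
  rw [h1]
  exact hs x hx

theorem red_left {S : Type} {w w' : List S} (h : Red (w ++ w')) : Red w := by
  exact (List.isChain_append.1 h).1

theorem red_right {S : Type} {w w' : List S} (h : Red (w ++ w')) : Red w' := by
  exact (List.isChain_append.1 h).2.1

/-- reduction of a walk (induction on the length; cancel `s s` by `symm`) -/
theorem dexists_red {S : Type} (Pg : PG S) {x y : Pg.P} {w : List S}
    (h : walk Pg.nb x w = some y) :
    ∃ w', Red w' ∧ w'.length ≤ w.length ∧ walk Pg.nb x w' = some y := by
  induction w using List.reverseRecOn generalizing y with
  | nil => exact ⟨[], List.isChain_nil, le_rfl, h⟩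
  | append_singleton w s ih =>
    obtain ⟨u, h1, h2⟩ := dw_snoc h
    obtain ⟨w', hr, hl, hw⟩ := ih h1
    by_cases hs : w'.getLast? = some s
    · obtain ⟨v, hv⟩ := List.getLast?_eq_some_iff.1 hs
      rw [hv] at hw hr hl
      obtain ⟨z, h3, h4⟩ := dw_snoc hw
      have h5 : some z = some y := by rw [← Pg.symm z s u h4, h2]
      refine ⟨v, red_left hr, ?_, ?_⟩
      · rw [List.length_append] at hl
        rw [List.length_append]
        omega
      · rw [h3, h5]
    · refine ⟨w' ++ [s], red_snoc hr ?_, ?_, walk_snoc hw h2⟩
      · intro t ht hts
        rw [hts] at ht
        exact hs ht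
      · rw [List.length_append, List.length_append]
        omega

private theorem dw_closed {S : Type} (Pg : PG S) {x : Pg.P} {w : List S} (hw : Red w)
    (h : walk Pg.nb x w = some x) (hl : w.length < 100 * Pg.L x) : w = [] := by
  by_contra hne
  have := Pg.girth x w hw hne h
  omega

private theorem red_rev {S : Type} {w : List S} (h : Red w) : Red w.reverse := by
  have h1 : w.IsChain (fun a b => a ≠ b) := h
  refine List.isChain_reverse.2 ?_
  exact h1.imp fun a b hab => hab.symm

/-- two reduced words with the same end points and total length less than the girth are equal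
(induction on `w`: if the last letters agree remove them, otherwise `w ++ w'.reverse` is reduced and
closed, so it is empty) -/
theorem red_uniq {S : Type} (Pg : PG S) {x y : Pg.P} {w w' : List S} (hw : Red w) (hw' : Red w')
    (h : walk Pg.nb x w = some y) (h' : walk Pg.nb x w' = some y)
    (hl : w.length + w'.length < 100 * Pg.L x) : w = w' := by
  induction w using List.reverseRecOn generalizing y w' with
  | nil =>
    change some x = some y at h
    rw [← h] at h'
    exact (dw_closed Pg hw' h' (by omega)).symm
  | append_singleton u s ih =>
    rcases List.eq_nil_or_concat w' with h0 | ⟨u', s', h0⟩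
    · rw [h0] at h'
      change some x = some y at h'
      rw [← h'] at h
      have := dw_closed Pg hw h (by omega)
      rw [h0, this]
    · rw [List.concat_eq_append] at h0
      rw [h0] at hw' h' hl ⊢
      obtain ⟨z, h1, h2⟩ := dw_snoc h
      obtain ⟨z', h1', h2'⟩ := dw_snoc h'
      by_cases hs : s = s'
      · rw [← hs] at h2' ⊢
        have h3 : some z = some z' := by rw [← Pg.symm z s y h2, Pg.symm z' s y h2']
        rw [← h3] at h1'
        have hl' : u.length + u'.length < 100 * Pg.L x := by
          simp only [List.length_append, List.length_singleton] at hl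
          omega
        rw [ih (red_left hw) (red_left hw') h1 h1' hl']
      · exfalso
        have hred : Red ((u ++ [s]) ++ (u' ++ [s']).reverse) := by
          refine List.isChain_append.2 ⟨hw, red_rev hw', ?_⟩
          intro a ha b hb
          rw [List.getLast?_concat] at ha
          rw [List.reverse_append, List.reverse_singleton, List.singleton_append,
            List.head?_cons] at hb
          have ha' : s = a := Option.some.inj ha
          have hb' : s' = b := Option.some.inj hb
          rw [← ha', ← hb']
          exact hs
        have hcl : walk Pg.nb x ((u ++ [s]) ++ (u' ++ [s']).reverse) = some x := by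
          rw [dwalk_append_some _ h]
          exact walk_rev Pg h'
        have h5 := dw_closed Pg hred hcl (by
          rw [List.length_append, List.length_reverse]
          exact hl)
        rw [List.append_eq_nil_iff] at h5
        have h6 := h5.1
        rw [List.append_eq_nil_iff] at h6
        exact absurd h6.2 (by simp)

end P089
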